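import Mathlib

/-!
Abstract "two-way path systems" over a finite monoid, and the basic counting lemmas
(components, supports, context lemma, conjugation lemma, potential lemma).
-/

namespace Crest.Agent.R294

open Set

/-- In a finite monoid every element has an idempotent positive power. -/
theorem exists_idem_pow {M : Type*} [Monoid M] [Finite M] (x : M) :
    ∃ n : ℕ, x ^ (n + 1) * x ^ (n + 1) = x ^ (n + 1) := by
  obtain ⟨i, j, hij, h⟩ := Finite.exists_ne_map_eq_of_infinite (fun n : ℕ => x ^ n)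
  wlog hlt : i < j generalizing i j
  · exact this j i hij.symm h.symm (lt_of_le_of_ne (not_lt.mp hlt) hij.symm)
  obtain ⟨p, rfl⟩ : ∃ p, j = i + (p + 1) := ⟨j - i - 1, by omega⟩
  have key : ∀ k t : ℕ, x ^ (i + t + k * (p + 1)) = x ^ (i + t) := by
    intro k t
    induction k with
    | zero => simp
    | succ k ih =>
      have : i + t + (k + 1) * (p + 1) = (i + (p + 1)) + (t + k * (p + 1)) := by ring
      rw [this, pow_add, ← h, ← pow_add, ← ih]
      congr 1; ring
  refine ⟨(i + 1) * (p + 1) - 1, ?_⟩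
  have h1 : (i + 1) * (p + 1) - 1 + 1 = (i + 1) * (p + 1) := by
    have : 0 < (i + 1) * (p + 1) := by positivity
    omega
  rw [h1, ← pow_add]
  have h2 : (i + 1) * (p + 1) = i + (i * p + p + 1) := by ring
  have := key (i + 1) (i * p + p + 1)
  rw [← h2] at this
  exact this

/-- an idempotent relation on a finite type factors through a loop -/
theorem exists_loop {V : Type*} [Finite V] (r : V → V → Prop)
    (htr : ∀ a b c, r a b → r b c → r a c) (hsp : ∀ a c, r a c → ∃ b, r a b ∧ r b c)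
    {u v : V} (h : r u v) : ∃ w, r u w ∧ r w w ∧ r w v := by
  classical
  let Z : Set V := {w | r u w ∧ r w v}
  have hZ : Z.Nonempty := hsp u v h
  obtain ⟨w, hw, hmin⟩ := Set.exists_min_image Z (fun w => {x | r w x}.ncard) (Set.toFinite _) hZ
  obtain ⟨w', h1, h2⟩ := hsp w v hw.2
  have hw' : w' ∈ Z := ⟨htr _ _ _ hw.1 h1, h2⟩
  have hsub : {x | r w' x} ⊆ {x | r w x} := fun x hx => htr _ _ _ h1 hx
  have heq : {x | r w' x} = {x | r w x} :=
    Set.eq_of_subset_of_ncard_le hsub (hmin w' hw') (Set.toFinite _)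
  have : w' ∈ {x | r w' x} := by rw [heq]; exact h1
  exact ⟨w', hw'.1, this, h2⟩

theorem ncard_image_le_of_factor {V A B : Type*} [Finite V] (s : Set V) (f : V → A) (g : V → B)
    (t : Set B) (ht : t.Finite) (hg : ∀ x ∈ s, g x ∈ t)
    (h : ∀ x ∈ s, ∀ y ∈ s, g x = g y → f x = f y) : (f '' s).ncard ≤ t.ncard := by
  classical
  rcases s.eq_empty_or_nonempty with rfl | ⟨x0, hx0⟩
  · simp
  have hch : ∀ a : A, ∃ x ∈ s, a ∈ f '' s → f x = a := by
    intro a
    by_cases ha : a ∈ f '' s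
    · obtain ⟨x, hx, rfl⟩ := ha
      exact ⟨x, hx, fun _ => rfl⟩
    · exact ⟨x0, hx0, fun h => absurd h ha⟩
  choose σ hσs hσf using hch
  refine Set.ncard_le_ncard_of_injOn (fun a => g (σ a)) (fun a _ => hg _ (hσs a)) ?_ ht
  intro a ha b hb hab
  rw [← hσf a ha, ← hσf b hb]
  exact h _ (hσs a) _ (hσs b) hab

/-- A two-way path system over a monoid `M`.  `P d x y z u v` says: on the tape `x | y | z`
there is a path between the vertex `u` of the first cut and the vertex `v` of the second cut,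
running from `u` to `v` if `d = true` and from `v` to `u` if `d = false`. -/
structure PathSys (M V : Type*) [Monoid M] where
  dir : V → Bool
  P : Bool → M → M → M → V → V → Prop
  comp : ∀ {d x y₁ y₂ z u w v}, P d x y₁ (y₂ * z) u w → P d (x * y₁) y₂ z w v →
    P d x (y₁ * y₂) z u v
  back₁ : ∀ {d x y₁ y₂ z u w w'}, P d x (y₁ * y₂) z u w → P (!d) (x * y₁) y₂ z w' w →
    P d x y₁ (y₂ * z) u w'
  back₂ : ∀ {d x y₁ y₂ z w w' v}, P (!d) x y₁ (y₂ * z) w' w → P d x (y₁ * y₂) z w' v →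
    P d (x * y₁) y₂ z w v
  mono : ∀ {d x y z u v} (x' z'), P d x y z u v → P d (x' * x) y (z * z') u v
  split : ∀ {x y₁ y₂ z u v}, dir u = dir v → P (dir u) x (y₁ * y₂) z u v →
    ∃ w, dir w = dir u ∧ P (dir u) x y₁ (y₂ * z) u w ∧ P (dir u) (x * y₁) y₂ z w v
  cross : ∀ {x₀ x y z z₀ u v}, y ≠ 1 → dir u = dir v → P (dir u) x₀ (x * y * z) z₀ u v →
    ∃ p q, dir p = dir u ∧ dir q = dir u ∧ P (dir u) x₀ x (y * z * z₀) u p ∧
      P (dir u) 1 y 1 p q ∧ P (dir u) (x₀ * x * y) z z₀ q v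
  repl : ∀ {x₀ x e z z₀ u v} (m), e ≠ 1 → dir u = dir v → P (dir u) x₀ (x * e * z) z₀ u v →
    P (dir u) x₀ (x * (e * m * e) * z) z₀ u v ∨ ∃ p q, dir p = dir q ∧ P (dir p) 1 e 1 p q ∧
      ¬ P (dir p) (x₀ * x) (e * m * e) (z * z₀) p q ∧
      ((dir p = dir u ∧ P (dir u) x₀ x (e * z * z₀) u p ∧ P (dir u) (x₀ * x * e) z z₀ q v) ∨
       (dir p = !(dir u) ∧ P (dir u) x₀ (x * e) (z * z₀) u q ∧
          P (dir u) (x₀ * x) (e * z) z₀ p v))
  hone : ∀ x y : M, x * y = 1 → x = 1

namespace PathSys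

variable {M V : Type*} [Monoid M] (S : PathSys M V)

/-- through-paths in a fixed direction -/
def T (x y z : M) (u v : V) : Prop := S.dir u = S.dir v ∧ S.P (S.dir u) x y z u v

variable {S}

theorem mono' {d : Bool} {x y z x₁ z₁ : M} {u v : V} (h : S.P d x y z u v)
    (hx : ∃ t, x₁ = t * x) (hz : ∃ t, z₁ = z * t) : S.P d x₁ y z₁ u v := by
  obtain ⟨a, rfl⟩ := hx
  obtain ⟨b, rfl⟩ := hz
  exact S.mono a b h

theorem T.mono' {x y z x₁ z₁ : M} {u v : V} (h : S.T x y z u v)
    (hx : ∃ t, x₁ = t * x) (hz : ∃ t, z₁ = z * t) : S.T x₁ y z₁ u v :=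
  ⟨h.1, PathSys.mono' h.2 hx hz⟩

theorem T.comp {x y₁ y₂ z : M} {u w v : V} (h₁ : S.T x y₁ (y₂ * z) u w)
    (h₂ : S.T (x * y₁) y₂ z w v) : S.T x (y₁ * y₂) z u v :=
  ⟨h₁.1.trans h₂.1, S.comp h₁.2 (h₁.1 ▸ h₂.2)⟩

theorem T.split {x y₁ y₂ z : M} {u v : V} (h : S.T x (y₁ * y₂) z u v) :
    ∃ w, S.T x y₁ (y₂ * z) u w ∧ S.T (x * y₁) y₂ z w v := by
  obtain ⟨w, hw, h1, h2⟩ := S.split h.1 h.2
  exact ⟨w, ⟨hw.symm, h1⟩, ⟨hw.trans h.1, hw ▸ h2⟩⟩

/-- lax multiplicativity in the local monoid at `e` -/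
theorem T.lax {e y₁ y₂ : M} {u w v : V} (h1 : y₁ * e = y₁) (h2 : e * y₂ = y₂)
    (a : S.T e y₁ e u w) (b : S.T e y₂ e w v) : S.T e (y₁ * y₂) e u v :=
  T.comp (a.mono' ⟨1, by simp⟩ ⟨y₂ * e, by rw [← mul_assoc, h2]⟩)
    (b.mono' ⟨e * y₁, by rw [mul_assoc, h1]⟩ ⟨1, by simp⟩)

theorem T.trans {e : M} (he : e * e = e) {u w v : V} (a : S.T e e e u w) (b : S.T e e e w v) :
    S.T e e e u v := by
  have := T.lax he he a b
  rwa [he] at this

theorem T.loop [Finite V] {e : M} (he : e * e = e) {u v : V} (h : S.T e e e u v) :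
    ∃ w, S.T e e e u w ∧ S.T e e e w w ∧ S.T e e e w v := by
  refine exists_loop (S.T e e e) (fun a b c => T.trans he) ?_ h
  intro a c hac
  have : S.T e (e * e) e a c := by rwa [he]
  obtain ⟨b, h1, h2⟩ := this.split
  rw [he] at h1 h2
  exact ⟨b, h1, h2⟩

theorem T.pow {e y : M} {u : V} (h1 : y * e = y) (h2 : e * y = y) (a : S.T e y e u u) (n : ℕ) :
    S.T e (y ^ (n + 1)) e u u := by
  induction n with
  | zero => simpa using a
  | succ n ih =>
    rw [pow_succ]
    exact T.lax (by rw [pow_succ, mul_assoc, h1]) h2 ih a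

variable (S) in
/-- the component of `w` for the idempotent `e` -/
def cls (e : M) (w : V) : Set V := {x | S.T e e e w x ∧ S.T e e e x w}

variable (S) in
/-- number of `e`-components met by `B` -/
noncomputable def N (e : M) (B : Set V) : ℕ := (S.cls e '' B).ncard

variable (S) in
/-- support of `a` relative to `e`: the loops of `e` that are not loops through `a` -/
def supp (e a : M) : Set V := {w | S.T e e e w w ∧ ¬ S.T e a e w w}

theorem cls_eq {e : M} (he : e * e = e) {u v : V} (a : S.T e e e u v) (b : S.T e e e v u) :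
    S.cls e u = S.cls e v := by
  ext x
  exact ⟨fun h => ⟨T.trans he b h.1, T.trans he h.2 a⟩, fun h => ⟨T.trans he a h.1, T.trans he h.2 b⟩⟩

theorem of_cls_eq {e : M} {u v : V} (hv : S.T e e e v v) (h : S.cls e u = S.cls e v) :
    S.T e e e u v ∧ S.T e e e v u := by
  have : v ∈ S.cls e v := ⟨hv, hv⟩
  rw [← h] at this
  exact this

theorem N_mono [Finite V] {e : M} {B C : Set V} (h : B ⊆ C) : S.N e B ≤ S.N e C :=
  Set.ncard_le_ncard (Set.image_mono h) (Set.toFinite _)

theorem N_union_le {e : M} (B C : Set V) : S.N e (B ∪ C) ≤ S.N e B + S.N e C := by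
  unfold N; rw [Set.image_union]; exact Set.ncard_union_le _ _

theorem N_le_card [Fintype V] {e : M} (B : Set V) : S.N e B ≤ Fintype.card V := by
  unfold N
  refine (Set.ncard_image_le (Set.toFinite _)).trans ?_
  have := Set.ncard_le_ncard (Set.subset_univ B) (Set.toFinite _)
  simpa [Set.ncard_univ] using this

theorem N_pos [Finite V] {e : M} {B : Set V} (h : B.Nonempty) : 1 ≤ S.N e B :=
  (Set.ncard_pos (Set.toFinite _)).mpr (h.image _)

theorem N_biUnion_le [Finite V] {e : M} {ι : Type*} (I : Finset ι) (B : ι → Set V) (d : ℕ)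
    (h : ∀ i ∈ I, S.N e (B i) ≤ d) : S.N e (⋃ i ∈ I, B i) ≤ I.card * d := by
  classical
  induction I using Finset.induction_on with
  | empty => simp [N]
  | insert a I ha ih =>
    rw [Finset.set_biUnion_insert, Finset.card_insert_of_notMem ha]
    refine (N_union_le _ _).trans ?_
    have h1 := h a (Finset.mem_insert_self _ _)
    have h2 := ih (fun i hi => h i (Finset.mem_insert_of_mem hi))
    nlinarith

/-- replacement of an idempotent block, in terms of the support -/
theorem repl' [Finite V] {x₀ x e z z₀ : M} {u v : V} (m : M) (he : e * e = e) (he1 : e ≠ 1)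
    (h : S.T x₀ (x * e * z) z₀ u v) :
    S.T x₀ (x * (e * m * e) * z) z₀ u v ∨ ∃ w ∈ S.supp e (e * m * e),
      S.P (S.dir u) x₀ (x * e) (e * z * z₀) u w ∧ S.P (S.dir u) (x₀ * x * e) (e * z) z₀ w v := by
  have he' : ∀ t, e * (e * t) = e * t := fun t => by rw [← mul_assoc, he]
  have h' : S.P (S.dir u) x₀ ((x * e) * e * (e * z)) z₀ u v := by
    have : (x * e) * e * (e * z) = x * e * z := by simp only [mul_assoc, he']
    rw [this]; exact h.2
  rcases S.repl m he1 h.1 h' with h1 | ⟨p, q, hpq, hP, hnP, htouch⟩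
  · left
    have : x * e * (e * m * e) * (e * z) = x * (e * m * e) * z := by simp only [mul_assoc, he']
    rw [this] at h1
    exact ⟨h.1, h1⟩
  · right
    have hT : S.T e e e p q := T.mono' (x := 1) (z := 1) ⟨hpq, hP⟩ ⟨e, by simp⟩ ⟨e, by simp⟩
    obtain ⟨w, hpw, hww, hwq⟩ := hT.loop he
    refine ⟨w, ⟨hww, fun hw => hnP ?_⟩, ?_⟩
    · have a1 : S.T e (e * (e * m * e)) e p w := T.lax he (by simp only [mul_assoc, he']) hpw hw
      have a2 : S.T e (e * (e * m * e) * e) e p q :=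
        T.lax (by simp only [mul_assoc, he]) he a1 hwq
      have : e * (e * m * e) * e = e * m * e := by simp only [mul_assoc, he, he']
      rw [this] at a2
      exact PathSys.mono' a2.2 ⟨x₀ * x, by simp only [mul_assoc]⟩ ⟨z * z₀, by simp only [mul_assoc]⟩
    · have b1 : S.P (S.dir p) (x₀ * (x * e)) e (e * z * z₀) p w :=
        PathSys.mono' hpw.2 ⟨x₀ * x, by simp only [mul_assoc]⟩ ⟨z * z₀, by simp only [mul_assoc]⟩
      have b2 : S.P (S.dir p) (x₀ * (x * e)) e (e * z * z₀) w q := by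
        have := hwq.2
        rw [← hpw.1] at this
        exact PathSys.mono' this ⟨x₀ * x, by simp only [mul_assoc]⟩ ⟨z * z₀, by simp only [mul_assoc]⟩
      rcases htouch with ⟨hd, t1, t2⟩ | ⟨hd, t1, t2⟩
      · rw [hd] at b1 b2
        constructor
        · have t1' : S.P (S.dir u) x₀ (x * e) (e * (e * z * z₀)) u p := by
            simpa only [mul_assoc] using t1
          have := S.comp t1' b1
          simpa only [mul_assoc, he] using this
        · have b2' : S.P (S.dir u) (x₀ * (x * e)) e ((e * z) * z₀) w q := b2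
          have := S.comp b2' t2
          simpa only [mul_assoc, he'] using this
      · rw [hd] at b1 b2
        constructor
        · have := S.back₁ t1 b2
          simpa only [mul_assoc, he'] using this
        · have b1' : S.P (!S.dir u) (x₀ * (x * e)) e ((e * z) * z₀) p w := b1
          have := S.back₂ b1' t2
          simpa only [mul_assoc, he] using this

/-- two touches of the same component can be spliced -/
theorem splice {d : Bool} {x₀ x e z z₀ : M} {u v w₁ w₂ : V} (he : e * e = e)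
    (h₁ : S.P d x₀ (x * e) (e * z * z₀) u w₁) (h₂ : S.P d (x₀ * x * e) (e * z) z₀ w₂ v)
    (a : S.T e e e w₁ w₂) (b : S.T e e e w₂ w₁) : S.P d x₀ (x * e * z) z₀ u v := by
  have he' : ∀ t, e * (e * t) = e * t := fun t => by rw [← mul_assoc, he]
  have key : S.P d x₀ (x * e) (e * z * z₀) u w₂ := by
    by_cases hd : S.dir w₁ = d
    · have a' : S.P d (x₀ * (x * e)) e (e * z * z₀) w₁ w₂ :=
        PathSys.mono' (hd ▸ a.2) ⟨x₀ * x, by simp only [mul_assoc]⟩ ⟨z * z₀, by simp only [mul_assoc]⟩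
      have h₁' : S.P d x₀ (x * e) (e * (e * z * z₀)) u w₁ := by
        simpa only [mul_assoc, he'] using h₁
      have := S.comp h₁' a'
      simpa only [mul_assoc, he] using this
    · have hd' : S.dir w₂ = !d := by
        rw [← a.1]; cases d <;> simpa using hd
      have b' : S.P (!d) (x₀ * (x * e)) e (e * z * z₀) w₂ w₁ :=
        PathSys.mono' (hd' ▸ b.2) ⟨x₀ * x, by simp only [mul_assoc]⟩ ⟨z * z₀, by simp only [mul_assoc]⟩
      have h₁' : S.P d x₀ ((x * e) * e) (e * z * z₀) u w₁ := by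
        simpa only [mul_assoc, he] using h₁
      have := S.back₁ h₁' b'
      simpa only [mul_assoc, he'] using this
  have h₂' : S.P d (x₀ * (x * e)) (e * z) z₀ w₂ v := by simpa only [mul_assoc] using h₂
  have := S.comp key h₂'
  simpa only [mul_assoc, he'] using this

/-- a unit of the local monoid at `f` permutes the components -/
theorem unit_perm {f U U' : M} (hUU' : U * U' = f) (hU'U : U' * U = f)
    (h1 : f * U = U) (h2 : U' * f = U') {u : V} (hu : S.T f f f u u) :
    ∃ w, S.T f U f u w ∧ S.T f U' f w u := by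
  have : S.T f (U * U') f u u := by rwa [hUU']
  obtain ⟨w, a, b⟩ := this.split
  rw [h2] at a
  rw [h1] at b
  exact ⟨w, a.mono' ⟨1, by simp⟩ ⟨U, hU'U.symm⟩, b.mono' ⟨U', hU'U.symm⟩ ⟨1, by simp⟩⟩

/-- Context lemma. -/
theorem context [Finite V] {e f U' : M} (he : e * e = e) (he1 : e ≠ 1) (hf : f * f = f)
    (hUU' : (f * e * f) * U' = f) (hU'U : U' * (f * e * f) = f) (h1 : f * U' = U')
    (h2 : U' * f = U') (B : Set V) (hB : ∀ w ∈ B, S.T e e e w w) :
    ∃ W : Set V, (∀ w ∈ W, S.T f f f w w) ∧ S.N f W ≤ 2 * S.N e B ∧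
      ∀ m, S.supp e (e * m * e) ⊆ B → S.supp f (f * (e * m * e) * f * U') ⊆ W := by
  classical
  have hf' : ∀ t, f * (f * t) = f * t := fun t => by rw [← mul_assoc, hf]
  have hσ : ∀ u : V, ∃ w, S.T f f f u u → S.T f (f * e * f) f u w ∧ S.T f U' f w u := by
    intro u
    by_cases hu : S.T f f f u u
    · obtain ⟨w, hw⟩ := unit_perm hUU' hU'U (by simp only [mul_assoc, hf']) h2 hu
      exact ⟨w, fun _ => hw⟩
    · exact ⟨u, fun h => absurd h hu⟩
  choose σ hσ using hσ
  let W : Set V := {u | S.T f f f u u ∧ ∃ w ∈ B, S.P (S.dir u) f (f * e) (e * f * f) u w ∧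
    S.P (S.dir u) (f * f * e) (e * f) f w (σ u)}
  refine ⟨W, fun w hw => hw.1, ?_, ?_⟩
  · have hτ : ∀ u : V, ∃ w, u ∈ W → w ∈ B ∧ S.P (S.dir u) f (f * e) (e * f * f) u w ∧
        S.P (S.dir u) (f * f * e) (e * f) f w (σ u) := by
      intro u
      by_cases hu : u ∈ W
      · obtain ⟨w, hw⟩ := hu.2
        exact ⟨w, fun _ => hw⟩
      · exact ⟨u, fun h => absurd h hu⟩
    choose τ hτ using hτ
    have := ncard_image_le_of_factor W (S.cls f) (fun u => (S.dir u, S.cls e (τ u)))
      (Set.univ ×ˢ (S.cls e '' B)) (Set.toFinite _)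
      (fun u hu => ⟨trivial, ⟨τ u, (hτ u hu).1, rfl⟩⟩) ?_
    · rw [Set.ncard_prod] at this
      simpa [N, Set.ncard_univ] using this
    · have aux : ∀ x ∈ W, ∀ y ∈ W, S.dir x = S.dir y → S.cls e (τ x) = S.cls e (τ y) →
          S.T f f f x y := by
        intro x hx y hy hd hc
        obtain ⟨a, b⟩ := of_cls_eq (hB _ (hτ y hy).1) hc
        have c : S.P (S.dir x) f (f * e * f) f x (σ y) :=
          splice he (hτ x hx).2.1 (hd ▸ (hτ y hy).2.2) a b
        have c' : S.T f (f * e * f) f x (σ y) := ⟨hd.trans (hσ y hy.1).1.1, c⟩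
        have := T.lax (by simp only [mul_assoc, hf]) h1 c' (hσ y hy.1).2
        rwa [hUU'] at this
      intro x hx y hy hxy
      simp only [Prod.mk.injEq] at hxy
      exact cls_eq hf (aux x hx y hy hxy.1 hxy.2) (aux y hy x hx hxy.1.symm hxy.2.symm)
  · intro m hm u hu
    refine ⟨hu.1, ?_⟩
    rcases repl' m he he1 (hσ u hu.1).1 with h | ⟨w, hw, h⟩
    · exact absurd (T.lax (by simp only [mul_assoc, hf]) h1 h (hσ u hu.1).2) hu.2
    · exact ⟨w, hm hw, h⟩

/-- Conjugation lemma. -/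
theorem conj [Finite V] {e g g' a : M} (he : e * e = e) (hgg' : g * g' = e) (hg'g : g' * g = e)
    (h1 : e * g = g) (h2 : g * e = g) (h3 : e * g' = g') (h4 : g' * e = g')
    (h5 : e * a = a) (h6 : a * e = a) :
    S.N e (S.supp e (g * a * g')) ≤ S.N e (S.supp e a) := by
  classical
  have hσ : ∀ u : V, ∃ w, S.T e e e u u → S.T e g e u w ∧ S.T e g' e w u := by
    intro u
    by_cases hu : S.T e e e u u
    · obtain ⟨w, hw⟩ := unit_perm hgg' hg'g h1 h4 hu
      exact ⟨w, fun _ => hw⟩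
    · exact ⟨u, fun h => absurd h hu⟩
  choose σ hσ using hσ
  have hloop : ∀ u, S.T e e e u u → S.T e e e (σ u) (σ u) := by
    intro u hu
    have := T.lax h4 h1 (hσ u hu).2 (hσ u hu).1
    rwa [hg'g] at this
  refine ncard_image_le_of_factor _ (S.cls e) (fun u => S.cls e (σ u)) _ (Set.toFinite _) ?_ ?_
  · intro u hu
    refine ⟨σ u, ⟨hloop u hu.1, fun h => hu.2 ?_⟩, rfl⟩
    exact T.lax (by rw [mul_assoc, h6]) h3 (T.lax h2 h5 (hσ u hu.1).1 h) (hσ u hu.1).2
  · have aux : ∀ x y, S.T e e e x x → S.T e e e y y → S.T e e e (σ x) (σ y) → S.T e e e x y := by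
      intro x y hx hy h
      have := T.lax (by rw [mul_assoc, he]) h3 (T.lax h2 he (hσ x hx).1 h) (hσ y hy).2
      rwa [h2, hgg'] at this
    intro x hx y hy hxy
    obtain ⟨a, b⟩ := of_cls_eq (hloop y hy.1) hxy
    exact cls_eq he (aux x y hx.1 hy.1 a) (aux y x hy.1 hx.1 b)

end PathSys

end Crest.Agent.R294
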