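import Crest.Agent.R294.Laws

/-!
For a deterministic machine, an accepting run over `E ++ m ++ E` can be pulled back to `E`
when all crossings of `E` survive.
-/

namespace Crest.Agent.R294

open Crest.TwoWay Relation

theorem det_induction {α β : Type*} (r : α → α → Prop) (hfun : ∀ x y z, r x y → r x z → y = z)
    (f : α) (hf : ∀ y, ¬ r f y) (g : β → α) (good C : β → Prop)
    (hstep : ∀ x, good x → ReflTransGen r (g x) f →
      C x ∨ ∃ y, good y ∧ TransGen r (g x) (g y) ∧ (C y → C x)) :
    ∀ x, good x → ReflTransGen r (g x) f → C x := by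
  have hconf : ∀ c d, ReflTransGen r c f → ReflTransGen r c d → ReflTransGen r d f := by
    intro c d h1 h2
    induction h2 with
    | refl => exact h1
    | tail _ h4 ih =>
      rcases ih.cases_head with h | ⟨b', h5, h6⟩
      · exact absurd (h ▸ h4) (hf _)
      · rwa [hfun _ _ _ h4 h5]
  have hacc : ∀ c, ReflTransGen r c f → Acc (fun y x => r x y) c := by
    intro c h
    induction h using ReflTransGen.head_induction_on with
    | refl => exact ⟨_, fun y h => absurd h (hf y)⟩
    | head h4 _ ih => exact ⟨_, fun y h => by rwa [hfun _ _ _ h h4]⟩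
  have main : ∀ c, Acc (TransGen (fun y x => r x y)) c → ∀ x, g x = c → good x →
      ReflTransGen r (g x) f → C x := by
    intro c hc
    induction hc with
    | intro c _ ih =>
      rintro x rfl hx hr
      rcases hstep x hx hr with h | ⟨y, hy, h1, h2⟩
      · exact h
      · exact h2 (ih (g y) (transGen_swap.2 h1) y rfl hy (hconf _ _ hr h1.to_reflTransGen))
  intro x hx hr
  exact main _ (hacc _ hr).transGen x rfl hx hr

variable {Γ Q : Type*} {δ : Q → Γ → Set (Q × HeadMove)}

theorem Reach.transGen_of_ne {w : List Γ} {c d : Q × ℤ} (h : Reach δ w c d) (hne : c.2 ≠ d.2) :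
    TransGen (TStep δ w) c d := by
  rcases reflTransGen_iff_eq_or_transGen.1 h with h | h
  · exact absurd (by rw [h]) hne
  · exact h

theorem det_back (hdet : ∀ q a, (δ q a).Subsingleton) {U E m W : List Γ} (hE : E ≠ [])
    (H : ∀ p q : Q × Bool, p.2 = q.2 → P₀ δ p.2 [] E [] p q → P₀ δ p.2 U (E ++ m ++ E) W p q)
    (s₀ f : Q)
    (h : Reach δ (U ++ (E ++ m ++ E) ++ W) (s₀, 0) (f, (U ++ (E ++ m ++ E) ++ W).length)) :
    Reach δ (U ++ E ++ W) (s₀, 0) (f, (U ++ E ++ W).length) := by
  have hlen : 0 < E.length := List.length_pos_iff.2 hE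
  refine det_induction (TStep δ (U ++ (E ++ m ++ E) ++ W)) ?_
    (f, ((U ++ (E ++ m ++ E) ++ W).length : ℤ)) ?_ (tr E.length (E ++ m ++ E).length)
    (fun x : Bool × (Q × ℤ) => (x.1 = false ∧ x.2.2 ≤ U.length) ∨
      (x.1 = true ∧ (U.length : ℤ) + E.length - 1 ≤ x.2.2))
    (fun x => Reach δ (U ++ E ++ W) x.2 (f, (U ++ E ++ W).length)) ?_ (false, (s₀, 0))
    (Or.inl ⟨rfl, by simp⟩) h
  · rintro x ⟨y1, y2⟩ ⟨z1, z2⟩ ⟨a, m, h1, h2, h3⟩ ⟨a', m', h1', h2', h3'⟩
    obtain rfl : a = a' := by rw [h1] at h1'; exact Option.some.inj h1'
    have := hdet _ _ h2 h2'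
    simp only [Prod.mk.injEq] at this h3 h3' ⊢
    obtain ⟨rfl, rfl⟩ := this
    exact ⟨rfl, by rw [h3, h3']⟩
  · intro y hy
    have := hy.bounds
    simp only at this
    omega
  · rintro ⟨s, p, i⟩ hx hr
    simp only at hx
    rcases hx with ⟨rfl, hx⟩ | ⟨rfl, hx⟩
    · simp only [tr] at hr ⊢
      right
      by_cases hi : i < U.length
      · rcases hr.cases_head with h | ⟨⟨q, j⟩, h1, -⟩
        · simp only [Prod.mk.injEq, List.length_append] at h
          omega
        · have hb := h1.bounds
          exact ⟨(false, (q, j)), Or.inl ⟨rfl, by simp only at hb ⊢; omega⟩, TransGen.single h1,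
            fun h => (h1.tr_left (Y' := E) hi).reach.trans h⟩
      · obtain rfl : i = U.length := by omega
        have hr' : Reach δ (U ++ E ++ (m ++ E ++ W)) (p, U.length)
            (f, ((U ++ (E ++ m ++ E) ++ W).length : ℤ)) := by
          simpa [Reach] using hr
        obtain ⟨s, q, k⟩ := hr'.exit le_rfl (by simp only; omega) (by simp; omega)
        simp only [sub_self] at k
        cases s
        · refine ⟨(false, (q, U.length - 1)), Or.inl ⟨rfl, by simp⟩, ?_, fun h => ?_⟩
          · exact Reach.transGen_of_ne (k.embed (U := U) (W := m ++ E ++ W) (by simp) (by simp)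
              (by simp [ex]; ring)) (by simp only; omega)
          · exact (k.embed rfl (by simp) (by simp [ex]; ring)).trans h
        · refine ⟨(true, (q, U.length + E.length)), Or.inr ⟨rfl, by simp⟩, ?_, fun h => ?_⟩
          · have := H (p, true) (q, true) rfl (by simpa [P₀, Dir, o, ex] using k)
            simp only [P₀, Dir, o, add_zero] at this
            refine Reach.transGen_of_ne ?_ (by simp; omega)
            simpa using this
          · exact (k.embed rfl (by simp) (by simp [ex])).trans h
    · simp only [tr] at hr ⊢
      by_cases hi : (U.length : ℤ) + E.length ≤ i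
      · rcases hr.cases_head with h | ⟨⟨q, j⟩, h1, -⟩
        · left
          simp only [Prod.mk.injEq, List.length_append] at h
          obtain ⟨rfl, h⟩ := h
          rw [show i = (U ++ E ++ W).length by simp only [List.length_append]; omega]
          exact Reach.refl
        · right
          have hb := h1.bounds
          have h2 := h1.tr_right (Y' := E) (by simp; omega)
          refine ⟨(true, (q, j - (E ++ m ++ E).length + E.length)),
            Or.inr ⟨rfl, by simp only at hb ⊢; omega⟩, TransGen.single (by simpa using h1),
            fun h => Reach.trans ?_ h⟩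
          simpa using h2.reach
      · right
        obtain rfl : i = U.length + E.length - 1 := by omega
        have hr' : Reach δ (U ++ E ++ m ++ E ++ W)
            (p, (U.length : ℤ) + E.length - 1 - E.length + (E ++ m ++ E).length)
            (f, ((U ++ (E ++ m ++ E) ++ W).length : ℤ)) := by
          simpa [Reach] using hr
        obtain ⟨s, q, k⟩ := hr'.exit (by simp; omega) (by simp; omega) (by simp; omega)
        have k' : Reach δ E (p, E.length - 1) (q, ex E.length s) := by
          convert k using 2
          simp
          ring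
        cases s
        · refine ⟨(false, (q, U.length - 1)), Or.inl ⟨rfl, by simp⟩, ?_, fun h => ?_⟩
          · have := H (q, false) (p, false) rfl
              (by simpa [P₀, Dir, o, ex, sub_eq_add_neg] using k')
            simp only [P₀, Dir, o] at this
            refine Reach.transGen_of_ne ?_ (by simp; omega)
            convert this using 2 <;> ring
          · exact (k'.embed rfl (by ring) (by simp [ex]; ring)).trans h
        · refine ⟨(true, (q, U.length + E.length)), Or.inr ⟨rfl, by simp⟩, ?_, fun h => ?_⟩
          · exact Reach.transGen_of_ne (k'.embed (U := U ++ E ++ m) (W := W) (by simp)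
              (by simp; ring) (by simp [ex]; ring)) (by simp only; omega)
          · exact (k'.embed rfl (by ring) (by simp [ex])).trans h

end Crest.Agent.R294
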