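import Crest.Agent.R294.Tape

/-!
The path-system laws for words, and the finite behaviour table of a word.
-/

namespace Crest.Agent.R294

open Crest.TwoWay

variable {Γ Q : Type*} (δ : Q → Γ → Set (Q × HeadMove))

/-- offset of a cut vertex: right-going vertices sit right of the cut, left-going ones left -/
def o : Bool → ℤ
  | true => 0
  | false => -1

theorem o_le (b : Bool) : o b ≤ 0 := by cases b <;> simp [o]
theorem le_o (b : Bool) : -1 ≤ o b := by cases b <;> simp [o]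

/-- orientation of a relation -/
def Dir {β : Type*} (d : Bool) (r : β → β → Prop) (x y : β) : Prop :=
  match d with
  | true => r x y
  | false => r y x

/-- paths between the two cuts of `X | Y | Z` -/
def P₀ (d : Bool) (X Y Z : List Γ) (u v : Q × Bool) : Prop :=
  Dir d (Reach δ (X ++ Y ++ Z)) (u.1, X.length + o u.2) (v.1, X.length + Y.length + o v.2)

variable {δ}

theorem P₀.comp {d : Bool} {X Y₁ Y₂ Z : List Γ} {u w v : Q × Bool}
    (h1 : P₀ δ d X Y₁ (Y₂ ++ Z) u w) (h2 : P₀ δ d (X ++ Y₁) Y₂ Z w v) :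
    P₀ δ d X (Y₁ ++ Y₂) Z u v := by
  cases d <;>
    simp only [P₀, Dir, List.append_assoc, List.length_append, Nat.cast_add, add_assoc] at *
  · exact h2.trans h1
  · exact h1.trans h2

theorem P₀.back₁ {d : Bool} {X Y₁ Y₂ Z : List Γ} {u w w' : Q × Bool}
    (h1 : P₀ δ d X (Y₁ ++ Y₂) Z u w) (h2 : P₀ δ (!d) (X ++ Y₁) Y₂ Z w' w) :
    P₀ δ d X Y₁ (Y₂ ++ Z) u w' := by
  cases d <;>
    simp only [P₀, Dir, List.append_assoc, List.length_append, Nat.cast_add, add_assoc,
      Bool.not_true, Bool.not_false] at *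
  · exact h2.trans h1
  · exact h1.trans h2

theorem P₀.back₂ {d : Bool} {X Y₁ Y₂ Z : List Γ} {w w' v : Q × Bool}
    (h1 : P₀ δ (!d) X Y₁ (Y₂ ++ Z) w' w) (h2 : P₀ δ d X (Y₁ ++ Y₂) Z w' v) :
    P₀ δ d (X ++ Y₁) Y₂ Z w v := by
  cases d <;>
    simp only [P₀, Dir, List.append_assoc, List.length_append, Nat.cast_add, add_assoc,
      Bool.not_true, Bool.not_false] at *
  · exact h2.trans h1
  · exact h1.trans h2

theorem P₀.mono {d : Bool} {X Y Z : List Γ} {u v : Q × Bool} (X' Z' : List Γ)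
    (h : P₀ δ d X Y Z u v) : P₀ δ d (X' ++ X) Y (Z ++ Z') u v := by
  cases d <;> simp only [P₀, Dir] at * <;>
    exact h.embed (U := X') (W := Z') (by simp) (by simp; ring) (by simp; ring)

theorem P₀.split {X Y₁ Y₂ Z : List Γ} {u v : Q × Bool} (huv : u.2 = v.2)
    (h : P₀ δ u.2 X (Y₁ ++ Y₂) Z u v) :
    ∃ w : Q × Bool, w.2 = u.2 ∧ P₀ δ u.2 X Y₁ (Y₂ ++ Z) u w ∧ P₀ δ u.2 (X ++ Y₁) Y₂ Z w v := by
  obtain ⟨p, d⟩ := u
  obtain ⟨q, d'⟩ := v
  simp only at huv
  subst huv
  cases d <;>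
    simp only [P₀, Dir, List.append_assoc, List.length_append, Nat.cast_add, add_assoc] at *
  · obtain ⟨r, h1, h2⟩ := h.ivt_down (X.length + (Y₁.length + o false)) (by simp) (by simp)
    exact ⟨(r, false), rfl, h2, h1⟩
  · obtain ⟨r, h1, h2⟩ := h.ivt_up (X.length + (Y₁.length + o true)) (by simp) (by simp)
    exact ⟨(r, true), rfl, h1, h2⟩

theorem P₀.cross {X₀ X Y Z Z₀ : List Γ} {u v : Q × Bool} (hY : Y ≠ []) (huv : u.2 = v.2)
    (h : P₀ δ u.2 X₀ (X ++ Y ++ Z) Z₀ u v) :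
    ∃ p q : Q × Bool, p.2 = u.2 ∧ q.2 = u.2 ∧ P₀ δ u.2 X₀ X (Y ++ Z ++ Z₀) u p ∧
      P₀ δ u.2 [] Y [] p q ∧ P₀ δ u.2 (X₀ ++ X ++ Y) Z Z₀ q v := by
  obtain ⟨p, d⟩ := u
  obtain ⟨q, d'⟩ := v
  simp only at huv
  subst huv
  have e : X₀ ++ (X ++ Y ++ Z) ++ Z₀ = (X₀ ++ X) ++ Y ++ (Z ++ Z₀) := by simp
  have hlen : 0 < Y.length := List.length_pos_iff.2 hY
  cases d
  · simp only [P₀, Dir] at h
    rw [e] at h
    have := h.decomp hY (fun x y => x.1 = true → y.1 = true) (fun _ h => h)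
      (fun _ _ _ a b h => b (a h)) (fun _ _ _ _ h => h) (fun _ _ _ _ h => h) (s := true)
      (Or.inr ⟨rfl, by simp [o]; omega⟩)
    rcases this with ⟨s₁, r, s₂, q', k1, k2, k3, k4⟩ | ⟨k1, k2⟩ | ⟨k1, k2⟩ | ⟨k1, k2, -⟩
    · cases s₁ <;> cases s₂ <;> simp at k3
      refine ⟨(q', false), (r, false), rfl, rfl, ?_, ?_, ?_⟩
      · simpa [P₀, Dir, ex, o, add_assoc] using k4
      · simpa [P₀, Dir, ex, ent, o, add_assoc, sub_eq_add_neg] using k2
      · simpa [P₀, Dir, ent, o, add_assoc, sub_eq_add_neg] using k1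
    · simp at k2
    · simp [o] at k1; omega
    · simp [o] at k1; omega
  · simp only [P₀, Dir] at h
    rw [e] at h
    have := h.decomp hY (fun x y => y.1 = true → x.1 = true) (fun _ h => h)
      (fun _ _ _ a b h => a (b h)) (fun _ _ _ _ h => h) (fun _ _ _ _ h => h) (s := false)
      (Or.inl ⟨rfl, by simp [o]⟩)
    rcases this with ⟨s₁, r, s₂, q', k1, k2, k3, k4⟩ | ⟨k1, k2⟩ | ⟨k1, k2⟩ | ⟨k1, k2, -⟩
    · cases s₁ <;> cases s₂ <;> simp at k3
      refine ⟨(r, true), (q', true), rfl, rfl, ?_, ?_, ?_⟩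
      · simpa [P₀, Dir, ent, o, add_assoc] using k1
      · simpa [P₀, Dir, ex, ent, o, add_assoc, sub_eq_add_neg] using k2
      · simpa [P₀, Dir, ex, o, add_assoc, sub_eq_add_neg] using k4
    · simp [o] at k1; omega
    · simp at k2
    · simp [o] at k2; omega

/-- a run entering and leaving `E` on the same side also exists in `E ++ m ++ E` -/
theorem same_side {U E m W : List Γ} {s : Bool} {r q : Q}
    (h : Reach δ E (r, ent E.length s) (q, ex E.length s)) :
    Reach δ (U ++ (E ++ m ++ E) ++ W) (r, U.length + ent (E ++ m ++ E).length s)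
      (q, U.length + ex (E ++ m ++ E).length s) := by
  cases s
  · exact h.embed (U := U) (W := m ++ E ++ W) (by simp) (by simp [ent]) (by simp [ex])
  · exact h.embed (U := U ++ E ++ m) (W := W) (by simp) (by simp [ent]; ring) (by simp [ex]; ring)

theorem P₀.repl {X₀ X E Z Z₀ : List Γ} {u v : Q × Bool} (m : List Γ) (hE : E ≠ [])
    (huv : u.2 = v.2) (h : P₀ δ u.2 X₀ (X ++ E ++ Z) Z₀ u v) :
    P₀ δ u.2 X₀ (X ++ (E ++ m ++ E) ++ Z) Z₀ u v ∨ ∃ p q : Q × Bool, p.2 = q.2 ∧
      P₀ δ p.2 [] E [] p q ∧ ¬ P₀ δ p.2 (X₀ ++ X) (E ++ m ++ E) (Z ++ Z₀) p q ∧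
      ((p.2 = u.2 ∧ P₀ δ u.2 X₀ X (E ++ Z ++ Z₀) u p ∧ P₀ δ u.2 (X₀ ++ X ++ E) Z Z₀ q v) ∨
       (p.2 = !u.2 ∧ P₀ δ u.2 X₀ (X ++ E) (Z ++ Z₀) u q ∧ P₀ δ u.2 (X₀ ++ X) (E ++ Z) Z₀ p v)) := by
  obtain ⟨p, d⟩ := u
  obtain ⟨q, d'⟩ := v
  simp only at huv
  subst huv
  have e : ∀ Y, X₀ ++ (X ++ Y ++ Z) ++ Z₀ = (X₀ ++ X) ++ Y ++ (Z ++ Z₀) := by simp
  have hlen : 0 < E.length := List.length_pos_iff.2 hE
  cases d
  · simp only [P₀, Dir] at h
    rw [e] at h
    have := h.replace (E ++ m ++ E) hE (s := true) (Or.inr ⟨rfl, by simp [o]; omega⟩)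
    rcases this with ⟨s₁, r, s₂, q', k1, k2, k3, k4⟩ | ⟨k1, k2⟩ | ⟨k1, k2⟩ | ⟨k1, k2, -⟩
    · right
      cases s₁ <;> cases s₂
      · exact absurd (same_side k2) k3
      · refine ⟨(r, true), (q', true), rfl, ?_, ?_, Or.inr ⟨rfl, ?_, ?_⟩⟩
        · simpa [P₀, Dir, ex, ent, o, add_assoc, sub_eq_add_neg] using k2
        · simpa [P₀, Dir, ex, ent, o, add_assoc, sub_eq_add_neg] using k3
        · simpa [P₀, Dir, ex, ent, o, add_assoc, sub_eq_add_neg] using k4
        · simpa [P₀, Dir, ex, ent, o, add_assoc, sub_eq_add_neg] using k1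
      · refine ⟨(q', false), (r, false), rfl, ?_, ?_, Or.inl ⟨rfl, ?_, ?_⟩⟩
        · simpa [P₀, Dir, ex, ent, o, add_assoc, sub_eq_add_neg] using k2
        · simpa [P₀, Dir, ex, ent, o, add_assoc, sub_eq_add_neg] using k3
        · simpa [P₀, Dir, ex, ent, o, add_assoc, sub_eq_add_neg] using k4
        · simpa [P₀, Dir, ex, ent, o, add_assoc, sub_eq_add_neg] using k1
      · exact absurd (same_side k2) k3
    · left
      simp only [P₀, Dir]
      rw [e]
      simp only [tr] at k2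
      convert k2 using 2
      simp
      ring
    · simp [o] at k1; omega
    · simp [o] at k1; omega
  · simp only [P₀, Dir] at h
    rw [e] at h
    have := h.replace (E ++ m ++ E) hE (s := false) (Or.inl ⟨rfl, by simp [o]⟩)
    rcases this with ⟨s₁, r, s₂, q', k1, k2, k3, k4⟩ | ⟨k1, k2⟩ | ⟨k1, k2⟩ | ⟨k1, k2, -⟩
    · right
      cases s₁ <;> cases s₂
      · exact absurd (same_side k2) k3
      · refine ⟨(r, true), (q', true), rfl, ?_, ?_, Or.inl ⟨rfl, ?_, ?_⟩⟩
        · simpa [P₀, Dir, ex, ent, o, add_assoc, sub_eq_add_neg] using k2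
        · simpa [P₀, Dir, ex, ent, o, add_assoc, sub_eq_add_neg] using k3
        · simpa [P₀, Dir, ex, ent, o, add_assoc, sub_eq_add_neg] using k1
        · simpa [P₀, Dir, ex, ent, o, add_assoc, sub_eq_add_neg] using k4
      · refine ⟨(q', false), (r, false), rfl, ?_, ?_, Or.inr ⟨rfl, ?_, ?_⟩⟩
        · simpa [P₀, Dir, ex, ent, o, add_assoc, sub_eq_add_neg] using k2
        · simpa [P₀, Dir, ex, ent, o, add_assoc, sub_eq_add_neg] using k3
        · simpa [P₀, Dir, ex, ent, o, add_assoc, sub_eq_add_neg] using k1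
        · simpa [P₀, Dir, ex, ent, o, add_assoc, sub_eq_add_neg] using k4
      · exact absurd (same_side k2) k3
    · simp [o] at k1; omega
    · left
      simp only [P₀, Dir]
      rw [e]
      simp only [tr] at k2
      convert k2 using 2
      simp
      ring
    · simp [o] at k2; omega

/-- position of a tagged offset relative to a block -/
def pos (U Y : List Γ) (s : Bool) (i : ℤ) : ℤ :=
  match s with
  | false => U.length + i
  | true => U.length + Y.length + i

/-- admissible offsets -/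
def ok (s : Bool) (i : ℤ) : Prop :=
  match s with
  | false => i ≤ 0
  | true => -1 ≤ i

variable (δ) in
/-- contextual simulation of the block `Y` by the block `Y'` -/
def Sim (Y Y' : List Γ) : Prop :=
  ∀ (U W : List Γ) (s t : Bool) (p q : Q) (i j : ℤ), ok s i → ok t j →
    Reach δ (U ++ Y ++ W) (p, pos U Y s i) (q, pos U Y t j) →
    Reach δ (U ++ Y' ++ W) (p, pos U Y' s i) (q, pos U Y' t j)

theorem Sim.refl (Y : List Γ) : Sim δ Y Y := fun _ _ _ _ _ _ _ _ _ _ h => h

theorem Sim.trans {Y₁ Y₂ Y₃ : List Γ} (h : Sim δ Y₁ Y₂) (h' : Sim δ Y₂ Y₃) : Sim δ Y₁ Y₃ :=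
  fun U W s t p q i j a b c => h' U W s t p q i j a b (h U W s t p q i j a b c)

theorem Sim.context {Y Y' : List Γ} (h : Sim δ Y Y') (X Z : List Γ) :
    Sim δ (X ++ Y ++ Z) (X ++ Y' ++ Z) := by
  intro U W s t p q i j a b c
  have e1 : ∀ (Y : List Γ) s i, pos U (X ++ Y ++ Z) s i =
      pos (U ++ X) Y s (match s with | false => i - X.length | true => i + Z.length) := by
    intro Y s i
    cases s
    · simp [pos]
    · simp [pos]; ring
  have e2 : ∀ s i, ok s i →
      ok s (match s with | false => i - X.length | true => i + Z.length) := by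
    intro s i h
    cases s <;> simp only [ok] at h ⊢ <;> omega
  have e3 : ∀ Y : List Γ, U ++ (X ++ Y ++ Z) ++ W = (U ++ X) ++ Y ++ (Z ++ W) := by simp
  rw [e1, e1, e3] at c ⊢
  exact h _ _ s t p q _ _ (e2 s i a) (e2 t j b) c

theorem Sim.append {X X' Y Y' : List Γ} (h : Sim δ X X') (h' : Sim δ Y Y') :
    Sim δ (X ++ Y) (X' ++ Y') := by
  have h1 := h.context [] Y
  have h2 := h'.context X' []
  simp only [List.nil_append, List.append_nil] at h1 h2
  exact h1.trans h2

theorem P₀.of_sim {d : Bool} {X Y Z X' Y' Z' : List Γ} {u v : Q × Bool} (hX : Sim δ X X')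
    (hY : Sim δ Y Y') (hZ : Sim δ Z Z') (h : P₀ δ d X Y Z u v) : P₀ δ d X' Y' Z' u v := by
  have a1 := o_le u.2
  have a2 := le_o u.2
  have a3 := o_le v.2
  have a4 := le_o v.2
  have h1 : P₀ δ d X' Y Z u v := by
    cases d <;> simp only [P₀, Dir] at h ⊢
    · have := hX [] (Y ++ Z) true true v.1 u.1 (Y.length + o v.2) (o u.2) (by simp [ok]; omega)
        (by simpa [ok]) (by simpa [pos, add_assoc] using h)
      simpa [pos, add_assoc] using this
    · have := hX [] (Y ++ Z) true true u.1 v.1 (o u.2) (Y.length + o v.2) (by simpa [ok])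
        (by simp [ok]; omega) (by simpa [pos, add_assoc] using h)
      simpa [pos, add_assoc] using this
  have h2 : P₀ δ d X' Y' Z u v := by
    cases d <;> simp only [P₀, Dir] at h1 ⊢
    · exact hY X' Z true false v.1 u.1 (o v.2) (o u.2) a4 a1 h1
    · exact hY X' Z false true u.1 v.1 (o u.2) (o v.2) a1 a4 h1
  cases d <;> simp only [P₀, Dir] at h2 ⊢
  · have := hZ (X' ++ Y') [] false false v.1 u.1 (o v.2) (o u.2 - Y'.length) a3
      (by simp [ok]; omega) (by simpa [pos, add_assoc] using h2)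
    simpa [pos, add_assoc] using this
  · have := hZ (X' ++ Y') [] false false u.1 v.1 (o u.2 - Y'.length) (o v.2)
      (by simp [ok]; omega) a3 (by simpa [pos, add_assoc] using h2)
    simpa [pos, add_assoc] using this

variable (δ) in
/-- the finite behaviour table -/
def beh (Y : List Γ) (x y : Q × Bool × Bool) : Prop :=
  Reach δ Y (x.1, pos [] Y x.2.1 (o x.2.2)) (y.1, pos [] Y y.2.1 (o y.2.2))

theorem sim_of_beh {Y Y' : List Γ} (hY : Y ≠ []) (h : beh δ Y = beh δ Y') : Sim δ Y Y' := by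
  intro U W s t p q i j a b c
  have hlen : 0 < Y.length := List.length_pos_iff.2 hY
  have e1 : ∀ (Y : List Γ) s, ent Y.length s = pos [] Y s (o (!s)) := by
    intro Y s; cases s <;> simp [ent, pos, o, sub_eq_add_neg]
  have e2 : ∀ (Y : List Γ) s, ex Y.length s = pos [] Y s (o s) := by
    intro Y s; cases s <;> simp [ex, pos, o]
  have key : ∀ (x y : Q × Bool × Bool), beh δ Y x y →
      Reach δ (U ++ Y' ++ W) (x.1, U.length + pos [] Y' x.2.1 (o x.2.2))
        (y.1, U.length + pos [] Y' y.2.1 (o y.2.2)) := by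
    intro x y hxy
    rw [h] at hxy
    exact Reach.embed hxy rfl rfl rfl
  have htr : tr Y.length Y'.length (s, (p, pos U Y s i)) = (p, pos U Y' s i) := by
    cases s <;> simp [tr, pos]
    ring
  have := c.replace Y' hY (s := s) (by cases s <;> simp [pos, ok] at a ⊢ <;> omega)
  rw [htr] at this
  rcases this with ⟨s₁, r, s₂, q', k1, k2, k3, k4⟩ | ⟨k1, k2⟩ | ⟨k1, k2⟩ | ⟨k1, k2, s₁, r, k3, k4⟩
  · exfalso
    apply k3
    rw [e1, e2] at k2 ⊢
    exact key (r, s₁, !s₁) (q', s₂, s₂) k2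
  · cases t
    · exact k2
    · simp only [pos, ok] at k1 b; omega
  · cases t
    · simp only [pos, ok] at k1 b; omega
    · convert k2 using 2
      simp [pos]
      ring
  · refine k3.trans ?_
    rw [e1] at k4 ⊢
    cases t
    · obtain rfl : j = 0 := by simp only [pos, ok] at k1 b; omega
      have := key (r, s₁, !s₁) (q, false, true) (by simpa [beh, pos, o] using k4)
      simpa [pos, o] using this
    · obtain rfl : j = -1 := by simp only [pos, ok] at k2 b; omega
      have := key (r, s₁, !s₁) (q, true, false) (by simpa [beh, pos, o, add_assoc] using k4)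
      simpa [pos, o, add_assoc] using this

end Crest.Agent.R294
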