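import Crest.Agent.R294.Potential

/-!
The abstract exponential lower bound.
-/

namespace Crest.Agent.R294

/-- a path system together with a surjective morphism onto the binary relations on `ι` -/
structure LiveSys (M V ι : Type*) [Monoid M] extends PathSys M V where
  φ : M → ι → ι → Prop
  φ_mul : ∀ x y i j, φ (x * y) i j ↔ ∃ k, φ x i k ∧ φ y k j
  surj : ∀ r : ι → ι → Prop, ∃ x, x ≠ 1 ∧ ∀ i j, φ x i j ↔ r i j
  base : ∀ e m, e * e = e → e ≠ 1 →
    (∀ p q, toPathSys.T 1 e 1 p q → toPathSys.T e (e * m * e) e p q) →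
    ∀ i j, φ (e * m * e) i j → φ e i j

namespace LiveSys

open PathSys

variable {M V ι : Type*} [Monoid M] (L : LiveSys M V ι)

/-- `x` is a lift of the partial identity of `S` together with the pairs in `Pr` -/
def Lift (x : M) (S : Finset ι) (Pr : Set (ι × ι)) : Prop :=
  ∀ i j, L.φ x i j ↔ (i = j ∧ i ∈ S) ∨ (i, j) ∈ Pr

/-- generic idempotent lift of a partial identity -/
structure Gen (e : M) (S : Finset ι) : Prop where
  idem : e * e = e
  ne : e ≠ 1
  lift : L.Lift e S ∅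
  inv : ∀ y, L.Lift y S ∅ → ∃ y', (e * y * e) * y' = e ∧ y' * (e * y * e) = e ∧ e * y' = y' ∧
    y' * e = y' ∧ L.Lift y' S ∅

variable {L}

theorem Lift.pow {x : M} {S : Finset ι} {Pr : Set (ι × ι)} (h : L.Lift x S Pr)
    (hh : ∀ i j, (∃ k, ((i = k ∧ i ∈ S) ∨ (i, k) ∈ Pr) ∧ ((k = j ∧ k ∈ S) ∨ (k, j) ∈ Pr)) ↔
      (i = j ∧ i ∈ S) ∨ (i, j) ∈ Pr) (n : ℕ) : L.Lift (x ^ (n + 1)) S Pr := by
  induction n with
  | zero => simpa using h
  | succ n ih =>
    intro i j
    rw [pow_succ, L.φ_mul]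
    simp only [ih _ _, h _ _]
    exact hh i j

theorem Lift.pow_empty {x : M} {S : Finset ι} (h : L.Lift x S ∅) (n : ℕ) :
    L.Lift (x ^ (n + 1)) S ∅ :=
  h.pow (by intro i j; simp) n

theorem Lift.mul_empty {x y : M} {S : Finset ι} (hx : L.Lift x S ∅) (hy : L.Lift y S ∅) :
    L.Lift (x * y) S ∅ := by
  intro i j
  rw [L.φ_mul]
  simp only [hx _ _, hy _ _]
  simp

theorem pow_left {e x : M} (h : e * x = x) (n : ℕ) : e * x ^ (n + 1) = x ^ (n + 1) := by
  rw [pow_succ', ← mul_assoc, h]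

theorem pow_right {e x : M} (h : x * e = x) (n : ℕ) : x ^ (n + 1) * e = x ^ (n + 1) := by
  rw [pow_succ, mul_assoc, h]

variable (L) in
theorem exists_gen [Finite M] (S : Finset ι) : ∃ e, L.Gen e S := by
  classical
  let K : Set M := {e | e * e = e ∧ e ≠ 1 ∧ L.Lift e S ∅}
  have hK : K.Nonempty := by
    obtain ⟨x, hx1, hx⟩ := L.surj (fun i j => i = j ∧ i ∈ S)
    obtain ⟨n, hn⟩ := exists_idem_pow x
    refine ⟨x ^ (n + 1), hn, fun h => hx1 (L.hone x (x ^ n) (by rw [← pow_succ', h])), ?_⟩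
    exact Lift.pow_empty (fun i j => by simp [hx]) n
  obtain ⟨e, he, hmin⟩ := Set.exists_min_image K (fun e => (Set.range fun m => e * m * e).ncard)
    (Set.toFinite _) hK
  obtain ⟨h1, h2, h3⟩ := he
  refine ⟨e, h1, h2, h3, fun y hy => ?_⟩
  set x := e * y * e with hx
  have hl : e * x = x := by rw [hx, ← mul_assoc, ← mul_assoc, h1]
  have hr : x * e = x := by rw [hx, mul_assoc, h1]
  have hxl : L.Lift x S ∅ := (h3.mul_empty hy).mul_empty h3
  obtain ⟨n, hn⟩ := exists_idem_pow x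
  set f := x ^ (n + 1) with hf
  have hfl : e * f = f := pow_left hl n
  have hfr : f * e = f := pow_right hr n
  have hfK : f ∈ K := ⟨hn, fun h => h2 (L.hone e f (by rw [hfl, h])), hxl.pow_empty n⟩
  have hsub : (Set.range fun m => f * m * f) ⊆ Set.range fun m => e * m * e := by
    rintro _ ⟨m, rfl⟩
    exact ⟨f * m * f, by simp only [← mul_assoc, hfl]; rw [mul_assoc, hfr]⟩
  have heq := Set.eq_of_subset_of_ncard_le hsub (hmin f hfK) (Set.toFinite _)
  have hmem : e ∈ Set.range fun m => f * m * f := by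
    rw [heq]; exact ⟨e, by simp only [h1]⟩
  obtain ⟨m, hm⟩ := hmem
  simp only at hm
  have hfe : f = e := by
    rw [← hfr, ← hm, ← mul_assoc, ← mul_assoc, hn]
  refine ⟨x ^ (n + n + 1), ?_, ?_, pow_left hl _, pow_right hr _, hxl.pow_empty _⟩
  · rw [← pow_succ', show n + n + 1 + 1 = (n + 1) + (n + 1) by ring, pow_add, hn, hfe]
  · rw [← pow_succ, show n + n + 1 + 1 = (n + 1) + (n + 1) by ring, pow_add, hn, hfe]

/-- moving the added edge by conjugation -/
theorem Gen.move [Finite V] [DecidableEq ι] {e a : M} {S : Finset ι} (he : L.Gen e S)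
    {i₀ j₀ i j : ι} (hi₀ : i₀ ∈ S) (hj₀ : j₀ ∈ S) (hi : i ∈ S) (hj : j ∈ S) (h₀ : i₀ ≠ j₀)
    (hij : i ≠ j) (h5 : e * a = a) (h6 : a * e = a) (ha : L.Lift a S {(i₀, j₀)}) :
    ∃ b, e * b = b ∧ b * e = b ∧ L.Lift b S {(i, j)} ∧
      L.toPathSys.N e (L.toPathSys.supp e b) ≤ L.toPathSys.N e (L.toPathSys.supp e a) := by
  obtain ⟨π, hπS, hπi, hπj⟩ : ∃ π : Equiv.Perm ι, (∀ x, π x ∈ S ↔ x ∈ S) ∧ π i = i₀ ∧ π j = j₀ := by
    have hsw : ∀ u v, u ∈ S → v ∈ S → ∀ x, Equiv.swap u v x ∈ S ↔ x ∈ S := by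
      intro u v hu hv x
      rw [Equiv.swap_apply_def]
      split_ifs with c1 c2
      · simp [c1, hu, hv]
      · simp [c2, hu, hv]
      · rfl
    refine ⟨Equiv.swap (Equiv.swap i i₀ j) j₀ * Equiv.swap i i₀, fun x => ?_, ?_, ?_⟩
    · rw [Equiv.Perm.mul_apply, hsw _ _ ((hsw _ _ hi hi₀ _).2 hj) hj₀, hsw _ _ hi hi₀]
    · rw [Equiv.Perm.mul_apply, Equiv.swap_apply_left]
      refine Equiv.swap_apply_of_ne_of_ne ?_ h₀
      intro h
      apply hij
      have := congrArg (Equiv.swap i i₀) h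
      simpa using this
    · rw [Equiv.Perm.mul_apply, Equiv.swap_apply_left]
  obtain ⟨g₀, -, hg₀⟩ := L.surj (fun x y => x ∈ S ∧ y = π x)
  obtain ⟨g₁, -, hg₁⟩ := L.surj (fun x y => y ∈ S ∧ x = π y)
  have hee := he.idem
  have hee' : ∀ t, e * (e * t) = e * t := fun t => by rw [← mul_assoc, hee]
  have hl := he.lift
  obtain ⟨r, r1, -, r3, r4, r5⟩ := he.inv (g₀ * e * g₁) (by
    intro x y
    simp only [L.φ_mul, hg₀, hg₁, hl _ _]
    constructor
    · rintro ⟨k, ⟨k', ⟨h1, rfl⟩, h2⟩, h3, rfl⟩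
      simp only [Set.mem_empty_iff_false, or_false] at h2 ⊢
      exact ⟨π.injective h2.1, h1⟩
    · rintro (⟨rfl, h⟩ | h)
      · exact ⟨π x, ⟨π x, ⟨h, rfl⟩, Or.inl ⟨rfl, (hπS x).2 h⟩⟩, h, rfl⟩
      · exact h.elim)
  obtain ⟨l, -, l2, l3, l4, -⟩ := he.inv (g₁ * e * g₀) (by
    intro x y
    simp only [L.φ_mul, hg₀, hg₁, hl _ _]
    constructor
    · rintro ⟨k, ⟨k', ⟨h1, rfl⟩, h2⟩, h3, rfl⟩
      simp only [Set.mem_empty_iff_false, or_false] at h2 ⊢
      exact ⟨by rw [h2.1], (hπS _).2 h1⟩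
    · rintro (⟨rfl, h⟩ | h)
      · have : π.symm x ∈ S := by rw [← hπS]; simpa using h
        exact ⟨π.symm x, ⟨π.symm x, ⟨this, by simp⟩, Or.inl ⟨rfl, this⟩⟩, this, by simp⟩
      · exact h.elim)
  set g := e * g₀ * e with hg
  set g' := e * g₁ * e * r with hg'
  have k1 : g * g' = e := by
    refine Eq.trans ?_ r1
    rw [hg, hg']; simp only [mul_assoc, hee']
  have k2 : (l * (e * g₁ * e)) * g = e := by
    refine Eq.trans ?_ l2
    rw [hg]; simp only [mul_assoc, hee']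
  have k3 : l * (e * g₁ * e) = g' := by
    calc l * (e * g₁ * e) = l * (e * g₁ * e) * e := by simp only [mul_assoc, hee]
      _ = l * (e * g₁ * e) * (g * g') := by rw [k1]
      _ = e * g' := by rw [← mul_assoc, k2]
      _ = g' := by rw [hg']; simp only [mul_assoc, hee']
  rw [k3] at k2
  have m1 : e * g = g := by rw [hg]; simp only [mul_assoc, hee']
  have m2 : g * e = g := by rw [hg]; simp only [mul_assoc, hee]
  have m3 : e * g' = g' := by rw [hg']; simp only [mul_assoc, hee']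
  have m4 : g' * e = g' := by rw [hg']; simp only [mul_assoc, r4]
  refine ⟨g * a * g', by simp only [← mul_assoc, m1], by simp only [mul_assoc, m4], ?_,
    PathSys.conj hee k1 k2 m1 m2 m3 m4 h5 h6⟩
  have hgφ : ∀ x y, L.φ g x y ↔ x ∈ S ∧ y = π x := by
    intro x y
    simp only [hg, L.φ_mul, hg₀, hl _ _, Set.mem_empty_iff_false, or_false]
    constructor
    · rintro ⟨k, ⟨k', ⟨rfl, h1⟩, h2, rfl⟩, rfl, h3⟩
      exact ⟨h1, rfl⟩
    · rintro ⟨h, rfl⟩
      exact ⟨π x, ⟨x, ⟨rfl, h⟩, h, rfl⟩, rfl, (hπS x).2 h⟩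
  have hg'φ : ∀ x y, L.φ g' x y ↔ y ∈ S ∧ x = π y := by
    intro x y
    simp only [hg', L.φ_mul, hg₁, hl _ _, r5 _ _, Set.mem_empty_iff_false, or_false]
    constructor
    · rintro ⟨k, ⟨k', ⟨k'', ⟨rfl, h1⟩, h2, rfl⟩, rfl, h3⟩, rfl, h4⟩
      exact ⟨h2, rfl⟩
    · rintro ⟨h, rfl⟩
      exact ⟨y, ⟨y, ⟨π y, ⟨rfl, (hπS y).2 h⟩, h, rfl⟩, rfl, h⟩, rfl, h⟩
  intro x y
  simp only [L.φ_mul, hgφ, hg'φ, ha _ _, Set.mem_singleton_iff, Prod.mk.injEq]
  constructor
  · rintro ⟨k, ⟨k', ⟨h1, rfl⟩, h2⟩, h3, rfl⟩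
    rcases h2 with ⟨h2, -⟩ | ⟨h2, h4⟩
    · exact Or.inl ⟨π.injective h2, h1⟩
    · exact Or.inr ⟨π.injective (h2.trans hπi.symm), π.injective (h4.trans hπj.symm)⟩
  · rintro (⟨rfl, h⟩ | ⟨rfl, rfl⟩)
    · exact ⟨π x, ⟨π x, ⟨h, rfl⟩, Or.inl ⟨rfl, (hπS x).2 h⟩⟩, h, rfl⟩
    · exact ⟨π y, ⟨π x, ⟨hi, rfl⟩, Or.inr ⟨hπi, hπj⟩⟩, hj, rfl⟩

variable (L) in
/-- the inductive statement -/
def LB (m D : ℕ) : Prop :=
  ∀ (S : Finset ι) (e a : M) (i j : ι), m + 2 ≤ S.card → L.Gen e S → i ∈ S → j ∈ S → i ≠ j →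
    e * a = a → a * e = a → L.Lift a S {(i, j)} →
    D ≤ L.toPathSys.N e (L.toPathSys.supp e a)

theorem LB_zero [Finite V] : L.LB 0 1 := by
  intro S e a i j _ he hi hj hij h1 h2 ha
  refine N_pos ?_
  by_contra hn
  rw [Set.not_nonempty_iff_eq_empty] at hn
  have hee := he.idem
  have h3 : e * a * e = a := by rw [h1, h2]
  have := L.base e a hee he.ne (by
    intro p q hpq
    have hT : L.toPathSys.T e e e p q := hpq.mono' ⟨e, by simp⟩ ⟨e, by simp⟩
    obtain ⟨w, k1, k2, k3⟩ := hT.loop hee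
    have k4 : L.toPathSys.T e a e w w := by
      by_contra h
      have : w ∈ L.toPathSys.supp e a := ⟨k2, h⟩
      rw [hn] at this
      exact this
    exact T.lax (by rw [mul_assoc, h2]) hee (T.lax hee h1 k1 k4) k3) i j
    (by rw [h3, ha]; simp)
  rw [he.lift] at this
  simp [hij] at this

/-- the chain of idempotents below `t` -/
theorem chain [Finite M] [Finite V] [DecidableEq ι] {m D : ℕ} (hLB : L.LB m D)
    {S' I J : Finset ι} (hI : I ⊆ S') (hJ : J ⊆ S') (hIJ : Disjoint I J)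
    (hcard : m + I.card + J.card ≤ S'.card) {t : M} (ht : t * t = t) (ht1 : t ≠ 1)
    (htl : L.Lift t S' ∅) (G : Set V) (hG : ∀ g ∈ G, L.toPathSys.T t t t g g)
    (hc : ∀ i ∈ I, ∀ j ∈ J, ∃ c, t * c = c ∧ c * t = c ∧ L.Lift c S' {(i, j)} ∧
      ∀ g ∈ G, L.toPathSys.T t c t g g)
    (Pr : Finset (ι × ι)) (hPr : Pr ⊆ I ×ˢ J) :
    ∃ F, F * F = F ∧ t * F = F ∧ F * t = F ∧ L.Lift F S' Pr ∧
      (∀ g ∈ G, L.toPathSys.T t F t g g) ∧
      Pr.card * D + 4 * L.toPathSys.N F (L.toPathSys.Om G F) ≤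
        4 * L.toPathSys.N t (L.toPathSys.Om G t) := by
  induction Pr using Finset.induction_on with
  | empty => exact ⟨t, ht, ht, ht, by simpa using htl, hG, by simp⟩
  | insert p Pr hp ih =>
    obtain ⟨i, j⟩ := p
    obtain ⟨F, f1, f2, f3, f4, f5, f6⟩ := ih ((Finset.subset_insert _ _).trans hPr)
    have hij := Finset.mem_product.1 (hPr (Finset.mem_insert_self _ _))
    have hPr' : ∀ x y, (x, y) ∈ Pr → x ∈ I ∧ y ∈ J := fun x y h =>
      Finset.mem_product.1 (hPr (Finset.mem_insert_of_mem h))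
    have hdisj : ∀ x, x ∈ I → x ∈ J → False := fun x h1 h2 => Finset.disjoint_left.1 hIJ h1 h2
    obtain ⟨hi, hj⟩ := hij
    simp only at hi hj
    obtain ⟨c, c1, c2, c3, c4⟩ := hc i hi j hj
    have f1' : ∀ u, F * (F * u) = F * u := fun u => by rw [← mul_assoc, f1]
    have hF1 : F ≠ 1 := fun h => ht1 (L.hone t F (by rw [f2, h]))
    obtain ⟨n, hn⟩ := exists_idem_pow (F * c * F)
    set F' := (F * c * F) ^ (n + 1) with hF'
    have hIS : ∀ x, x ∈ I → x ∈ S' := fun x h => hI h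
    have hJS : ∀ x, x ∈ J → x ∈ S' := fun x h => hJ h
    have l0 : L.Lift (F * c * F) S' (insert (i, j) Pr : Finset (ι × ι)) := by
      intro x y
      simp only [L.φ_mul, f4 _ _, c3 _ _, Finset.coe_insert, Set.mem_insert_iff, Finset.mem_coe,
        Set.mem_singleton_iff, Prod.mk.injEq]
      constructor
      · rintro ⟨k, ⟨k', h1, h2⟩, h3⟩
        have := hPr' x k'
        have := hPr' k y
        have := hdisj k'
        have := hdisj k
        grind
      · rintro (⟨rfl, h⟩ | ⟨rfl, rfl⟩ | h)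
        · exact ⟨x, ⟨x, Or.inl ⟨rfl, h⟩, Or.inl ⟨rfl, h⟩⟩, Or.inl ⟨rfl, h⟩⟩
        · exact ⟨y, ⟨x, Or.inl ⟨rfl, hIS _ hi⟩, Or.inr ⟨rfl, rfl⟩⟩, Or.inl ⟨rfl, hJS _ hj⟩⟩
        · have := hJS _ (hPr' x y h).2
          exact ⟨y, ⟨y, Or.inr h, Or.inl ⟨rfl, this⟩⟩, Or.inl ⟨rfl, this⟩⟩
    have l1 : L.Lift F' S' (insert (i, j) Pr : Finset (ι × ι)) := by
      refine l0.pow ?_ n
      intro x y
      simp only [Finset.coe_insert, Set.mem_insert_iff, Finset.mem_coe, Prod.mk.injEq]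
      constructor
      · rintro ⟨k, h1, h2⟩
        have := hPr' x k
        have := hPr' k y
        have := hdisj k
        grind
      · rintro (⟨rfl, h⟩ | ⟨rfl, rfl⟩ | h)
        · exact ⟨x, Or.inl ⟨rfl, h⟩, Or.inl ⟨rfl, h⟩⟩
        · exact ⟨y, Or.inr (Or.inl ⟨rfl, rfl⟩), Or.inl ⟨rfl, hJS _ hj⟩⟩
        · exact ⟨y, Or.inr (Or.inr h), Or.inl ⟨rfl, hJS _ (hPr' x y h).2⟩⟩
    have a1 : t * F' = F' := pow_left (by simp only [← mul_assoc, f2]) n
    have a2 : F' * t = F' := pow_right (by simp only [mul_assoc, f3]) n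
    have a3 : F * F' = F' := pow_left (by simp only [← mul_assoc, f1]) n
    have a4 : F' * F = F' := pow_right (by simp only [mul_assoc, f1]) n
    have gG : ∀ g ∈ G, L.toPathSys.T t F' t g g := by
      intro g hg
      refine T.pow (by simp only [mul_assoc, f3]) (by simp only [← mul_assoc, f2]) ?_ n
      exact T.lax (by simp only [mul_assoc, c2]) f2 (T.lax f3 c1 (f5 g hg) (c4 g hg)) (f5 g hg)
    refine ⟨F', hn, a1, a2, l1, gG, ?_⟩
    have pot := PathSys.potential (S := L.toPathSys) f1 hF1 hn a3 a4 G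
      (fun g hg => (gG g hg).mono' ⟨F, f3.symm⟩ ⟨F, f2.symm⟩)
    -- restriction to the smaller level
    let S₁ : Finset ι := insert i (insert j (S' \ (I ∪ J)))
    have hS₁ : m + 2 ≤ S₁.card := by
      have h1 : j ∉ S' \ (I ∪ J) := by simp [hj]
      have h2 : i ∉ insert j (S' \ (I ∪ J)) := by
        simp only [Finset.mem_insert, Finset.mem_sdiff, Finset.mem_union, hi, true_or,
          not_true_eq_false, and_false, or_false]
        rintro rfl
        exact hdisj _ hi hj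
      have h3 : (S' \ (I ∪ J)).card + (I ∪ J).card = S'.card :=
        Finset.card_sdiff_add_card_eq_card (Finset.union_subset hI hJ)
      have h4 := Finset.card_union_le I J
      rw [Finset.card_insert_of_notMem h2, Finset.card_insert_of_notMem h1]
      omega
    have hmem : ∀ x, x ∈ S₁ ↔ x = i ∨ x = j ∨ (x ∈ S' ∧ x ∉ I ∧ x ∉ J) := by
      intro x; simp [S₁]
    obtain ⟨f, hf⟩ := L.exists_gen S₁
    have hff := hf.idem
    have hff' : ∀ u, f * (f * u) = f * u := fun u => by rw [← mul_assoc, hff]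
    obtain ⟨U', u1, u2, u3, u4, u5⟩ := hf.inv (f * F * f) (by
      intro x y
      simp only [L.φ_mul, f4 _ _, hf.lift _ _, Finset.mem_coe, Set.mem_empty_iff_false, or_false]
      constructor
      · rintro ⟨k, ⟨k', ⟨rfl, h1⟩, h2⟩, rfl, h3⟩
        have := hPr' x k
        have := hmem x
        have := hmem k
        have := hdisj i
        have := hdisj j
        grind
      · rintro ⟨rfl, h⟩
        refine ⟨x, ⟨x, ⟨rfl, h⟩, Or.inl ⟨rfl, ?_⟩⟩, rfl, h⟩
        have := hmem x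
        have := hIS i hi
        have := hJS j hj
        grind)
    have e0 : f * (f * F * f) * f = f * F * f := by simp only [mul_assoc, hff, hff']
    rw [e0] at u1 u2
    obtain ⟨W, -, w2, w3⟩ := PathSys.context (S := L.toPathSys) f1 hF1 hff u1 u2 u3 u4
      (L.toPathSys.supp F F') (fun w hw => hw.1)
    have e1 : F * F' * F = F' := by rw [a3, a4]
    have w4 := w3 F' (by rw [e1])
    rw [e1] at w4
    have := hLB S₁ f (f * F' * f * U') i j hS₁ hf (by simp [S₁]) (by simp [S₁])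
      (by rintro rfl; exact hdisj _ hi hj) (by simp only [mul_assoc, hff'])
      (by simp only [mul_assoc, u4]) (by
        intro x y
        simp only [L.φ_mul, l1 _ _, hf.lift _ _, u5 _ _, Finset.coe_insert, Set.mem_insert_iff,
          Finset.mem_coe, Set.mem_empty_iff_false, or_false, Set.mem_singleton_iff, Prod.mk.injEq]
        constructor
        · rintro ⟨k'', ⟨k, ⟨k', ⟨rfl, h1⟩, h2⟩, rfl, h3⟩, rfl, h4⟩
          have := hPr' x k
          have := hmem x
          have := hmem k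
          have := hdisj i
          have := hdisj j
          grind
        · rintro (⟨rfl, h⟩ | ⟨rfl, rfl⟩)
          · refine ⟨x, ⟨x, ⟨x, ⟨rfl, h⟩, Or.inl ⟨rfl, ?_⟩⟩, rfl, h⟩, rfl, h⟩
            have := hmem x
            have := hIS i hi
            have := hJS j hj
            grind
          · have h1 : x ∈ S₁ := by simp [S₁]
            have h2 : y ∈ S₁ := by simp [S₁]
            exact ⟨y, ⟨y, ⟨x, ⟨rfl, h1⟩, Or.inr (Or.inl ⟨rfl, rfl⟩)⟩, rfl, h2⟩, rfl, h2⟩)
    have w5 := N_mono (S := L.toPathSys) (e := f) w4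
    rw [Finset.card_insert_of_notMem hp, add_mul, one_mul]
    omega

/-- the inductive step -/
theorem LB_step [Finite M] [Finite V] {m D D' : ℕ} (k : ℕ) (hk : 1 ≤ k) (hLB : L.LB m D)
    (hD : ∀ d, k * D ≤ 16 * d → D' ≤ d) : L.LB (m + (2 * k - 1)) D' := by
  classical
  intro S e a i₀ j₀ hS he hi₀ hj₀ h₀ h5 h6 ha
  apply hD
  set d := L.toPathSys.N e (L.toPathSys.supp e a) with hd
  -- hub `i₀`, and two disjoint `k`-sets
  have hc : (S.erase i₀).card = S.card - 1 := Finset.card_erase_of_mem hi₀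
  obtain ⟨I, hI, hIc⟩ := Finset.exists_subset_card_eq (s := S.erase i₀) (n := k) (by omega)
  have hc2 : (S.erase i₀ \ I).card = S.card - 1 - k := by
    rw [Finset.card_sdiff_of_subset hI, hc, hIc]
  obtain ⟨J, hJ, hJc⟩ := Finset.exists_subset_card_eq (s := S.erase i₀ \ I) (n := k) (by omega)
  have hJ' : J ⊆ S.erase i₀ := hJ.trans Finset.sdiff_subset
  have hIJ : Disjoint I J := by
    rw [Finset.disjoint_left]
    intro x h1 h2
    exact (Finset.mem_sdiff.1 (hJ h2)).2 h1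
  have hA : ∀ i, ∃ b, i ∈ I → e * b = b ∧ b * e = b ∧ L.Lift b S {(i, i₀)} ∧
      L.toPathSys.N e (L.toPathSys.supp e b) ≤ d := by
    intro i
    by_cases hi : i ∈ I
    · have := Finset.mem_erase.1 (hI hi)
      obtain ⟨b, hb⟩ := he.move hi₀ hj₀ this.2 hi₀ h₀ this.1 h5 h6 ha
      exact ⟨b, fun _ => hb⟩
    · exact ⟨1, fun h => absurd h hi⟩
  have hB : ∀ j, ∃ b, j ∈ J → e * b = b ∧ b * e = b ∧ L.Lift b S {(i₀, j)} ∧
      L.toPathSys.N e (L.toPathSys.supp e b) ≤ d := by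
    intro j
    by_cases hj : j ∈ J
    · have := Finset.mem_erase.1 (hJ' hj)
      obtain ⟨b, hb⟩ := he.move hi₀ hj₀ hi₀ this.2 h₀ this.1.symm h5 h6 ha
      exact ⟨b, fun _ => hb⟩
    · exact ⟨1, fun h => absurd h hj⟩
  choose A hA using hA
  choose B hB using hB
  let Bad : Set V := (⋃ i ∈ I, L.toPathSys.supp e (A i)) ∪ ⋃ j ∈ J, L.toPathSys.supp e (B j)
  have hBad : L.toPathSys.N e Bad ≤ 2 * (k * d) := by
    refine (N_union_le _ _).trans ?_
    have h1 := N_biUnion_le (S := L.toPathSys) (e := e) I (fun i => L.toPathSys.supp e (A i)) d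
      (fun i hi => (hA i hi).2.2.2)
    have h2 := N_biUnion_le (S := L.toPathSys) (e := e) J (fun i => L.toPathSys.supp e (B i)) d
      (fun i hi => (hB i hi).2.2.2)
    rw [hIc] at h1
    rw [hJc] at h2
    omega
  have hee := he.idem
  have hee' : ∀ t, e * (e * t) = e * t := fun t => by rw [← mul_assoc, hee]
  obtain ⟨t₀, -, ht₀⟩ := L.surj (fun x y => x = y ∧ x ∈ S.erase i₀)
  obtain ⟨n, ht⟩ := exists_idem_pow (e * t₀ * e)
  set t := (e * t₀ * e) ^ (n + 1) with htdef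
  have t1 : e * t = t := pow_left (by simp only [mul_assoc, hee']) n
  have t2 : t * e = t := pow_right (by simp only [mul_assoc, hee]) n
  have ht1 : t ≠ 1 := fun h => he.ne (L.hone e t (by rw [t1, h]))
  have htl : L.Lift t (S.erase i₀) ∅ := by
    refine Lift.pow_empty ?_ n
    intro x y
    simp only [L.φ_mul, ht₀, he.lift _ _, Set.mem_empty_iff_false, or_false, Finset.mem_erase]
    constructor
    · rintro ⟨k, ⟨k', ⟨rfl, h1⟩, rfl, h2⟩, rfl, h3⟩
      exact ⟨rfl, h2⟩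
    · rintro ⟨rfl, h⟩
      exact ⟨x, ⟨x, ⟨rfl, h.2⟩, rfl, h⟩, rfl, h.2⟩
  have htet : t * e * t = t := by rw [t2, ht]
  obtain ⟨W, w1, w2, w3⟩ := PathSys.context (S := L.toPathSys) (U' := t) hee he.ne ht
    (by rw [htet, ht]) (by rw [htet, ht]) ht ht Bad (by
      intro w hw
      simp only [Bad, Set.mem_union, Set.mem_iUnion] at hw
      rcases hw with ⟨i, -, h⟩ | ⟨i, -, h⟩
      · exact h.1
      · exact h.1)
  let G : Set V := {g | L.toPathSys.T t t t g g ∧ g ∉ W}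
  have ht' : ∀ u, t * (t * u) = t * u := fun u => by rw [← mul_assoc, ht]
  obtain ⟨F, -, -, -, -, -, hF⟩ := chain hLB hI hJ' hIJ (by omega) ht ht1 htl G
    (fun g hg => hg.1) (by
      intro i hi j hj
      obtain ⟨a1, a2, a3, -⟩ := hA i hi
      obtain ⟨b1, b2, b3, -⟩ := hB j hj
      have e1 : e * (A i * B j) * e = A i * B j := by
        rw [← mul_assoc, a1, mul_assoc, b2]
      have w4 := w3 (A i * B j) (by
        rw [e1]
        intro w hw
        by_contra hn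
        simp only [Bad, Set.mem_union, Set.mem_iUnion, not_or, not_exists] at hn
        have k1 : L.toPathSys.T e (A i) e w w := by
          by_contra h; exact hn.1 i hi ⟨hw.1, h⟩
        have k2 : L.toPathSys.T e (B j) e w w := by
          by_contra h; exact hn.2 j hj ⟨hw.1, h⟩
        exact hw.2 (T.lax a2 b1 k1 k2))
      rw [e1] at w4
      refine ⟨t * (A i * B j) * t * t, by simp only [mul_assoc, ht'],
        by simp only [mul_assoc, ht], ?_, ?_⟩
      · intro x y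
        have hi' := Finset.mem_erase.1 (hI hi)
        have hj' := Finset.mem_erase.1 (hJ' hj)
        simp only [L.φ_mul, htl _ _, a3 _ _, b3 _ _, Set.mem_empty_iff_false, or_false,
          Finset.mem_erase, Set.mem_singleton_iff, Prod.mk.injEq]
        constructor
        · rintro ⟨k1, ⟨k2, ⟨k3, ⟨rfl, h1⟩, k4, h2, h3⟩, rfl, h4⟩, rfl, h5⟩
          grind
        · rintro (⟨rfl, h⟩ | ⟨rfl, rfl⟩)
          · exact ⟨x, ⟨x, ⟨x, ⟨rfl, h⟩, x, Or.inl ⟨rfl, h.2⟩, Or.inl ⟨rfl, h.2⟩⟩, rfl, h⟩, rfl, h⟩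
          · exact ⟨y, ⟨y, ⟨x, ⟨rfl, hi'⟩, i₀, Or.inr ⟨rfl, rfl⟩, Or.inr ⟨rfl, rfl⟩⟩, rfl, hj'⟩,
              rfl, hj'⟩
      · intro g hg
        by_contra h
        exact hg.2 (w4 ⟨hg.1, h⟩)) (I ×ˢ J) subset_rfl
  have hOm : L.toPathSys.N t (L.toPathSys.Om G t) ≤ L.toPathSys.N t W := by
    refine N_mono ?_
    intro w hw
    by_contra h
    exact hw.2 w ⟨hw.1, h⟩ ⟨hw.1, hw.1⟩
  rw [Finset.card_product, hIc, hJc] at hF
  have : k * (k * D) ≤ k * (16 * d) := by nlinarith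
  exact Nat.le_of_mul_le_mul_left this hk

theorem LB.mono {m m' D : ℕ} (h : L.LB m D) (hm : m ≤ m') : L.LB m' D :=
  fun S e a i j hS => h S e a i j (by omega)

theorem LB.le_card [Finite M] [Fintype V] [Fintype ι] {m D : ℕ} (h : L.LB m D)
    (hm : m + 2 ≤ Fintype.card ι) : D ≤ Fintype.card V := by
  classical
  obtain ⟨e, he⟩ := L.exists_gen Finset.univ
  obtain ⟨i, j, hij⟩ := Fintype.exists_pair_of_one_lt_card (α := ι) (by omega)
  obtain ⟨a, -, ha⟩ := L.surj (fun x y => x = y ∨ (x = i ∧ y = j))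
  have hee := he.idem
  refine (h Finset.univ e (e * a * e) i j (by simpa using hm) he (by simp) (by simp) hij
    (by simp only [← mul_assoc, hee]) (by simp only [mul_assoc, hee]) ?_).trans (N_le_card _)
  intro x y
  simp [L.φ_mul, ha, he.lift _ _]

/-- doubling every 127 points -/
theorem LB_pow [Finite M] [Finite V] (q : ℕ) : L.LB (127 * q) (2 ^ q) := by
  induction q with
  | zero => exact LB_zero
  | succ q ih =>
    have := LB_step (D' := 2 ^ (q + 1)) 64 (by norm_num) ih (by intro d hd; rw [pow_succ]; omega)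
    exact this.mono (by omega)

theorem bound_nfa (L : LiveSys M V ι) [Finite M] [Fintype V] [Fintype ι] (h2 : 2 ≤ Fintype.card ι) :
    2 ^ ((Fintype.card ι - 2) / 127) ≤ Fintype.card V :=
  (LB_pow (L := L) _).le_card (by omega)

theorem LB_sq [Finite M] [Finite V] (m : ℕ) (hm : 33 ≤ m) :
    ∃ D, L.LB m D ∧ 2 ^ (m / 31) ≤ D ^ 2 := by
  induction m using Nat.strong_induction_on with
  | _ m ih =>
    have h2 : L.LB 33 2 := LB_step (L := L) 17 (by norm_num) LB_zero (by intro d hd; omega)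
    have h3 : L.LB 66 3 := LB_step (L := L) 17 (by norm_num) h2 (by intro d hd; omega)
    have h4 : L.LB 99 4 := LB_step (L := L) 17 (by norm_num) h3 (by intro d hd; omega)
    by_cases c1 : m < 93
    · refine ⟨2, h2.mono hm, ?_⟩
      exact Nat.pow_le_pow_right (by norm_num) (by omega)
    by_cases c2 : m < 124
    · refine ⟨3, h3.mono (by omega), ?_⟩
      have : m / 31 = 3 := by omega
      rw [this]; norm_num
    by_cases c3 : m < 126
    · refine ⟨4, h4.mono (by omega), ?_⟩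
      have : m / 31 = 4 := by omega
      rw [this]; norm_num
    obtain ⟨D, hD, hD2⟩ := ih (m - 93) (by omega) (by omega)
    refine ⟨(47 * D + 15) / 16, ?_, ?_⟩
    · have := LB_step (D' := (47 * D + 15) / 16) 47 (by norm_num) hD (by intro d hd; omega)
      exact this.mono (by omega)
    · have e1 : m / 31 = (m - 93) / 31 + 3 := by omega
      rw [e1, pow_add]
      have h5 : 47 * D ≤ 16 * ((47 * D + 15) / 16) := by omega
      nlinarith

theorem bound_dfa (L : LiveSys M V ι) [Finite M] [Fintype V] [Fintype ι] (h2 : 2 ≤ Fintype.card V) :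
    2 ^ ((Fintype.card ι - 2) / 31) ≤ (Fintype.card V) ^ 2 := by
  by_cases h : Fintype.card ι - 2 < 33
  · calc 2 ^ ((Fintype.card ι - 2) / 31) ≤ 2 ^ 2 := Nat.pow_le_pow_right (by norm_num) (by omega)
      _ ≤ _ := Nat.pow_le_pow_left h2 2
  · obtain ⟨D, hD, hD2⟩ := LB_sq (L := L) (Fintype.card ι - 2) (by omega)
    exact hD2.trans (Nat.pow_le_pow_left (hD.le_card (by omega)) 2)

end LiveSys

end Crest.Agent.R294
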