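import Crest.Agent.R294.Det
import Crest.Agent.R294.Main

/-!
From a two-way automaton to a tape machine, and the path system of its behaviour monoid.
-/

namespace Crest.Agent.R294

open Crest.TwoWay Relation

section machine

variable {α σ : Type*} (B : TwoWayNFA α σ)

/-- the tape machine: one extra state that is entered on acceptance and sweeps to the right -/
def delta : Option σ → Cell α → Set (Option σ × HeadMove)
  | none, _ => {(none, .moveRight)}
  | some q, c => {x | (q ∈ B.accept ∧ x = (none, .stay)) ∨ (q ∉ B.accept ∧ ∃ q' m,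
      x = (some q', m) ∧ (q', m) ∈ B.step q c ∧ (c = .leftEnd → m ≠ .moveLeft) ∧
        (c = .rightEnd → m ≠ .moveRight))}

theorem delta_det (h : B.IsDeterministic) (q : Option σ) (c : Cell α) :
    (delta B q c).Subsingleton := by
  cases q with
  | none => exact Set.subsingleton_singleton
  | some q =>
    rintro x (⟨h1, rfl⟩ | ⟨h1, q1, m1, rfl, h2, -⟩) y (⟨h3, rfl⟩ | ⟨h3, q2, m2, rfl, h4, -⟩)
    · rfl
    · exact absurd h1 h3
    · exact absurd h3 h1
    · have := h q c h2 h4
      simp only [Prod.mk.injEq] at this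
      rw [this.1, this.2]

/-- the word between its endmarkers -/
def tape (w : List α) : List (Cell α) := Cell.leftEnd :: (w.map Cell.letter ++ [Cell.rightEnd])

theorem tape_length (w : List α) : (tape w).length = w.length + 2 := by simp [tape]

theorem cell_tape (w : List α) (k : ℕ) (hk : k ≤ w.length + 1) :
    cell (tape w) k = some (scan w k) := by
  unfold cell scan tape
  rw [if_pos (by omega)]
  cases k with
  | zero => simp
  | succ k =>
    simp only [Int.toNat_natCast, List.getElem?_cons_succ, Nat.add_eq_zero_iff, one_ne_zero,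
      and_false, if_false, Nat.add_sub_cancel]
    by_cases h : k < w.length
    · rw [List.getElem?_append_left (by simpa using h)]
      simp [List.getElem?_eq_getElem h]
    · obtain rfl : k = w.length := by omega
      rw [List.getElem?_append_right (by simp)]
      simp

theorem scan_eq_leftEnd {w : List α} {k : ℕ} : scan w k = Cell.leftEnd ↔ k = 0 := by
  unfold scan
  split_ifs with h
  · simp [h]
  · split <;> simp [h]

theorem scan_eq_rightEnd {w : List α} {k : ℕ} : scan w k = Cell.rightEnd ↔ w.length + 1 ≤ k := by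
  unfold scan
  split_ifs with h
  · simp [h]
  · split
    · rename_i a ha
      have := (List.getElem?_eq_some_iff.1 ha).1
      simp; omega
    · rename_i ha
      have := List.getElem?_eq_none_iff.1 ha
      simp; omega

theorem movePos_some {l i j : ℕ} {m : HeadMove} (h : movePos l i m = some j) :
    (j : ℤ) = i + off m ∧ (i = 0 → m ≠ .moveLeft) ∧ (l + 1 ≤ i → m ≠ .moveRight) ∧
      (i ≤ l + 1 → j ≤ l + 1) := by
  cases m <;> simp only [movePos] at h
  · split_ifs at h with h0
    simp only [Option.some.injEq] at h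
    simp [off, h0]; omega
  · simp only [Option.some.injEq] at h
    simp [off, h]
  · split_ifs at h with h0
    simp only [Option.some.injEq] at h
    simp [off, h0]; omega

theorem movePos_exists {l i : ℕ} {m : HeadMove} (h1 : i = 0 → m ≠ .moveLeft)
    (h2 : l + 1 ≤ i → m ≠ .moveRight) : ∃ j, movePos l i m = some j := by
  cases m <;> simp only [movePos]
  · rw [if_neg (fun h => h1 h rfl)]; exact ⟨_, rfl⟩
  · exact ⟨_, rfl⟩
  · rw [if_neg (fun h => h2 h rfl)]; exact ⟨_, rfl⟩

theorem sweep (w : List α) (k : ℕ) (hk : k ≤ w.length + 2) :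
    Reach (delta B) (tape w) (none, k) (none, (tape w).length) := by
  obtain ⟨n, hn⟩ : ∃ n, k + n = w.length + 2 := ⟨w.length + 2 - k, by omega⟩
  induction n generalizing k with
  | zero => rw [tape_length, ← hn]; exact Reach.refl
  | succ n ih =>
    refine Reach.trans (TStep.reach ?_) (ih (k + 1) (by omega) (by omega))
    exact ⟨scan w k, .moveRight, cell_tape w k (by omega), rfl, by simp [off]⟩

theorem accepts_iff (w : List α) :
    B.Accepts w ↔ Reach (delta B) (tape w) (some B.start, 0) (none, (tape w).length) := by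
  constructor
  · rintro ⟨c, hc, hacc⟩
    have fin : ∀ d : σ × ℕ, d.2 ≤ w.length + 1 → d.1 ∈ B.accept →
        Reach (delta B) (tape w) (some d.1, d.2) (none, (tape w).length) := by
      intro d h1 h2
      refine Reach.trans (TStep.reach ?_) (sweep B w d.2 (by omega))
      exact ⟨scan w d.2, .stay, cell_tape w _ h1, Or.inl ⟨h2, rfl⟩, by simp [off]⟩
    have inv : c.2 ≤ w.length + 1 ∧
        (Reach (delta B) (tape w) (some B.start, 0) (some c.1, c.2) ∨
          Reach (delta B) (tape w) (some B.start, 0) (none, (tape w).length)) := by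
      clear hacc
      induction hc with
      | refl => exact ⟨by simp, Or.inl Reach.refl⟩
      | @tail b e _ h2 ih =>
        obtain ⟨m, h3, h4⟩ := h2
        obtain ⟨k1, k2, k3, k4⟩ := movePos_some h4
        refine ⟨k4 ih.1, ?_⟩
        rcases ih.2 with h | h
        · by_cases hb : b.1 ∈ B.accept
          · exact Or.inr (h.trans (fin b ih.1 hb))
          · refine Or.inl (h.tail ⟨scan w b.2, m, cell_tape w _ ih.1, Or.inr ⟨hb, e.1, m, rfl, h3,
              fun h => k2 (scan_eq_leftEnd.1 h), fun h => k3 (scan_eq_rightEnd.1 h)⟩, k1⟩)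
        · exact Or.inr h
    rcases inv.2 with h | h
    · exact h.trans (fin c inv.1 hacc)
    · exact h
  · intro h
    have inv : ∀ d, Reach (delta B) (tape w) (some B.start, 0) d →
        (d.1 = none → B.Accepts w) ∧ ∀ q, d.1 = some q → ∃ k : ℕ, d.2 = k ∧ k ≤ w.length + 1 ∧
          ReflTransGen (B.Step w) (B.start, 0) (q, k) := by
      intro d hd
      induction hd with
      | refl =>
        refine ⟨by simp, ?_⟩
        rintro q hq
        simp only [Option.some.injEq] at hq
        subst hq
        exact ⟨0, rfl, by simp, ReflTransGen.refl⟩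
      | @tail b e _ h2 ih =>
        obtain ⟨a, m, h3, h4, h5⟩ := h2
        obtain ⟨p, i⟩ := b
        cases p with
        | none =>
          have : e.1 = none := by
            simp only [delta, Set.mem_singleton_iff, Prod.mk.injEq] at h4
            exact h4.1
          exact ⟨fun _ => ih.1 rfl, by simp [this]⟩
        | some p =>
          obtain ⟨k, k1, k2, k3⟩ := ih.2 p rfl
          simp only at k1 h3 h4 h5
          subst k1
          rw [cell_tape w k k2, Option.some.injEq] at h3
          subst h3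
          rcases h4 with ⟨h6, h7⟩ | ⟨h6, q', m', h7, h8, h9, h10⟩
          · simp only [Prod.mk.injEq] at h7
            exact ⟨fun _ => ⟨(p, k), k3, h6⟩, by simp [h7.1]⟩
          · simp only [Prod.mk.injEq] at h7
            obtain ⟨h7, rfl⟩ := h7
            refine ⟨by simp [h7], ?_⟩
            intro q hq
            rw [h7, Option.some.injEq] at hq
            subst hq
            obtain ⟨j, hj⟩ := movePos_exists (l := w.length) (i := k) (m := m)
              (fun h => h9 (scan_eq_leftEnd.2 h)) (fun h => h10 (scan_eq_rightEnd.2 h))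
            obtain ⟨l1, -, -, l4⟩ := movePos_some hj
            exact ⟨j, by rw [h5, l1], l4 k2, k3.tail ⟨m, h8, hj⟩⟩
    exact (inv _ h).1 rfl

end machine

theorem wordRel_append {h : ℕ} (x y : List (Fin h → Fin h → Bool)) (i j : Fin h) :
    wordRel (x ++ y) i j ↔ ∃ k, wordRel x i k ∧ wordRel y k j := by
  induction x generalizing i with
  | nil => simp [wordRel]
  | cons R x ih =>
    simp only [List.cons_append, wordRel, ih]
    constructor
    · rintro ⟨b, h1, k, h2, h3⟩
      exact ⟨k, ⟨b, h1, h2⟩, h3⟩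
    · rintro ⟨k, ⟨b, h1, h2⟩, h3⟩
      exact ⟨b, h1, k, h2, h3⟩

section monoid

variable {h : ℕ} {σ : Type*} (B : TwoWayNFA (Fin h → Fin h → Bool) σ)

/-- letters as tape cells -/
def lt (x : FreeMonoid (Fin h → Fin h → Bool)) : List (Cell (Fin h → Fin h → Bool)) :=
  x.toList.map Cell.letter

theorem lt_mul (x y : FreeMonoid (Fin h → Fin h → Bool)) : lt (x * y) = lt x ++ lt y := by
  simp [lt]

theorem lt_one : lt (1 : FreeMonoid (Fin h → Fin h → Bool)) = [] := by simp [lt]

theorem lt_ne {x : FreeMonoid (Fin h → Fin h → Bool)} (hx : x ≠ 1) : lt x ≠ [] := by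
  intro h
  apply hx
  simp only [lt, List.map_eq_nil_iff] at h
  exact FreeMonoid.toList.injective h

theorem fm_mul_eq_one {β : Type*} {x y : FreeMonoid β} : x * y = 1 ↔ x = 1 ∧ y = 1 := by
  have h : ∀ x : FreeMonoid β, x = 1 ↔ x.toList = [] := fun x =>
    ⟨fun h => by simp [h], fun h => FreeMonoid.toList.injective h⟩
  simp only [h, FreeMonoid.toList_mul, List.append_eq_nil_iff]

/-- the behaviour congruence -/
def con : Con (FreeMonoid (Fin h → Fin h → Bool)) where
  r x y := (x = 1 ↔ y = 1) ∧ wordRel x.toList = wordRel y.toList ∧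
    Sim (delta B) (lt x) (lt y) ∧ Sim (delta B) (lt y) (lt x)
  iseqv := ⟨fun x => ⟨Iff.rfl, rfl, Sim.refl _, Sim.refl _⟩,
    fun h => ⟨h.1.symm, h.2.1.symm, h.2.2.2, h.2.2.1⟩,
    fun h h' => ⟨h.1.trans h'.1, h.2.1.trans h'.2.1, h.2.2.1.trans h'.2.2.1,
      h'.2.2.2.trans h.2.2.2⟩⟩
  mul' := by
    intro w x y z h h'
    refine ⟨?_, ?_, ?_, ?_⟩
    · rw [fm_mul_eq_one, fm_mul_eq_one, h.1, h'.1]
    · funext i j
      simp only [FreeMonoid.toList_mul, wordRel_append, h.2.1, h'.2.1]
    · rw [lt_mul, lt_mul]; exact h.2.2.1.append h'.2.2.1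
    · rw [lt_mul, lt_mul]; exact h.2.2.2.append h'.2.2.2

instance finite_con [Finite σ] : Finite (con B).Quotient := by
  classical
  let F : FreeMonoid (Fin h → Fin h → Bool) → Prop × (Fin h → Fin h → Prop) ×
    (Option σ × Bool × Bool → Option σ × Bool × Bool → Prop) :=
    fun x => (x = 1, wordRel x.toList, beh (delta B) (lt x))
  have hF : ∀ x y, F x = F y → con B x y := by
    intro x y hxy
    simp only [F, Prod.mk.injEq, eq_iff_iff] at hxy
    obtain ⟨h1, h2, h3⟩ := hxy
    by_cases hx : x = 1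
    · have hy := h1.1 hx
      rw [hx, hy]
      exact (con B).refl _
    · have hy : y ≠ 1 := fun h => hx (h1.2 h)
      exact ⟨h1, h2, sim_of_beh (lt_ne hx) h3, sim_of_beh (lt_ne hy) h3.symm⟩
  refine Finite.of_injective (fun q : (con B).Quotient => F (Quotient.out q)) ?_
  intro a b hab
  rw [← Quotient.out_eq a, ← Quotient.out_eq b]
  exact Quotient.sound (hF _ _ hab)

/-- paths between cuts, for classes of words -/
def PP (d : Bool) (x y z : (con B).Quotient) (u v : Option σ × Bool) : Prop :=
  ∃ X Y Z, (con B).mk' X = x ∧ (con B).mk' Y = y ∧ (con B).mk' Z = z ∧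
    P₀ (delta B) d (lt X) (lt Y) (lt Z) u v

theorem mk'_eq {X Y : FreeMonoid (Fin h → Fin h → Bool)} :
    (con B).mk' X = (con B).mk' Y ↔ con B X Y := Con.eq _

theorem PP_mk {d : Bool} {X Y Z : FreeMonoid (Fin h → Fin h → Bool)} {u v : Option σ × Bool} :
    PP B d ((con B).mk' X) ((con B).mk' Y) ((con B).mk' Z) u v ↔
      P₀ (delta B) d (lt X) (lt Y) (lt Z) u v := by
  constructor
  · rintro ⟨X', Y', Z', h1, h2, h3, h4⟩
    rw [mk'_eq] at h1 h2 h3
    exact h4.of_sim h1.2.2.1 h2.2.2.1 h3.2.2.1
  · intro h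
    exact ⟨X, Y, Z, rfl, rfl, rfl, h⟩

theorem PP_mk_one {d : Bool} {Y : FreeMonoid (Fin h → Fin h → Bool)} {u v : Option σ × Bool} :
    PP B d 1 ((con B).mk' Y) 1 u v ↔ P₀ (delta B) d [] (lt Y) [] u v := by
  rw [← map_one (con B).mk', PP_mk, lt_one]

theorem mk'_eq_one {X : FreeMonoid (Fin h → Fin h → Bool)} : (con B).mk' X = 1 ↔ X = 1 := by
  rw [← map_one (con B).mk', mk'_eq]
  exact ⟨fun h => h.1.2 rfl, fun h => h ▸ (con B).refl _⟩

/-- the path system of the automaton -/
def pathSys : PathSys (con B).Quotient (Option σ × Bool) where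
  dir := Prod.snd
  P := PP B
  comp := by
    intro d x y₁ y₂ z u w v
    obtain ⟨x, rfl⟩ := (con B).mk'_surjective x
    obtain ⟨y₁, rfl⟩ := (con B).mk'_surjective y₁
    obtain ⟨y₂, rfl⟩ := (con B).mk'_surjective y₂
    obtain ⟨z, rfl⟩ := (con B).mk'_surjective z
    simp only [← map_mul, PP_mk, lt_mul]
    exact P₀.comp
  back₁ := by
    intro d x y₁ y₂ z u w v
    obtain ⟨x, rfl⟩ := (con B).mk'_surjective x
    obtain ⟨y₁, rfl⟩ := (con B).mk'_surjective y₁
    obtain ⟨y₂, rfl⟩ := (con B).mk'_surjective y₂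
    obtain ⟨z, rfl⟩ := (con B).mk'_surjective z
    simp only [← map_mul, PP_mk, lt_mul]
    exact P₀.back₁
  back₂ := by
    intro d x y₁ y₂ z u w v
    obtain ⟨x, rfl⟩ := (con B).mk'_surjective x
    obtain ⟨y₁, rfl⟩ := (con B).mk'_surjective y₁
    obtain ⟨y₂, rfl⟩ := (con B).mk'_surjective y₂
    obtain ⟨z, rfl⟩ := (con B).mk'_surjective z
    simp only [← map_mul, PP_mk, lt_mul]
    exact P₀.back₂
  mono := by
    intro d x y z u v x' z'
    obtain ⟨x, rfl⟩ := (con B).mk'_surjective x
    obtain ⟨y, rfl⟩ := (con B).mk'_surjective y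
    obtain ⟨z, rfl⟩ := (con B).mk'_surjective z
    obtain ⟨x', rfl⟩ := (con B).mk'_surjective x'
    obtain ⟨z', rfl⟩ := (con B).mk'_surjective z'
    simp only [← map_mul, PP_mk, lt_mul]
    exact P₀.mono _ _
  split := by
    intro x y₁ y₂ z u v
    obtain ⟨x, rfl⟩ := (con B).mk'_surjective x
    obtain ⟨y₁, rfl⟩ := (con B).mk'_surjective y₁
    obtain ⟨y₂, rfl⟩ := (con B).mk'_surjective y₂
    obtain ⟨z, rfl⟩ := (con B).mk'_surjective z
    simp only [← map_mul, PP_mk, lt_mul]
    exact P₀.split
  cross := by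
    intro x₀ x y z z₀ u v
    obtain ⟨x₀, rfl⟩ := (con B).mk'_surjective x₀
    obtain ⟨x, rfl⟩ := (con B).mk'_surjective x
    obtain ⟨y, rfl⟩ := (con B).mk'_surjective y
    obtain ⟨z, rfl⟩ := (con B).mk'_surjective z
    obtain ⟨z₀, rfl⟩ := (con B).mk'_surjective z₀
    simp only [← map_mul, PP_mk, PP_mk_one, lt_mul, ne_eq, mk'_eq_one]
    exact fun hy => P₀.cross (lt_ne hy)
  repl := by
    intro x₀ x y z z₀ u v m
    obtain ⟨x₀, rfl⟩ := (con B).mk'_surjective x₀
    obtain ⟨x, rfl⟩ := (con B).mk'_surjective x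
    obtain ⟨y, rfl⟩ := (con B).mk'_surjective y
    obtain ⟨z, rfl⟩ := (con B).mk'_surjective z
    obtain ⟨z₀, rfl⟩ := (con B).mk'_surjective z₀
    obtain ⟨m, rfl⟩ := (con B).mk'_surjective m
    simp only [← map_mul, PP_mk, PP_mk_one, lt_mul, ne_eq, mk'_eq_one]
    exact fun hy => P₀.repl _ (lt_ne hy)
  hone := by
    intro x y
    obtain ⟨x, rfl⟩ := (con B).mk'_surjective x
    obtain ⟨y, rfl⟩ := (con B).mk'_surjective y
    simp only [← map_mul, mk'_eq_one, fm_mul_eq_one]
    exact fun h => h.1

/-- the composite relation of a class of words -/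
def phi (x : (con B).Quotient) (i j : Fin h) : Prop :=
  ∃ X, (con B).mk' X = x ∧ wordRel X.toList i j

theorem phi_mk {X : FreeMonoid (Fin h → Fin h → Bool)} {i j : Fin h} :
    phi B ((con B).mk' X) i j ↔ wordRel X.toList i j := by
  constructor
  · rintro ⟨X', h1, h2⟩
    rw [mk'_eq] at h1
    rwa [← h1.2.1]
  · intro h
    exact ⟨X, rfl, h⟩

/-- the system, given the base property on words -/
def liveSys (hbase : ∀ E m : FreeMonoid (Fin h → Fin h → Bool), E ≠ 1 →
      wordRel (E * E).toList = wordRel E.toList →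
      (∀ p q : Option σ × Bool, p.2 = q.2 → P₀ (delta B) p.2 [] (lt E) [] p q →
        P₀ (delta B) p.2 (lt E) (lt E ++ lt m ++ lt E) (lt E) p q) →
      ∀ i j, wordRel (E * m * E).toList i j → wordRel E.toList i j) :
    LiveSys (con B).Quotient (Option σ × Bool) (Fin h) where
  toPathSys := pathSys B
  φ := phi B
  φ_mul := by
    intro x y i j
    obtain ⟨x, rfl⟩ := (con B).mk'_surjective x
    obtain ⟨y, rfl⟩ := (con B).mk'_surjective y
    simp only [← map_mul, phi_mk, FreeMonoid.toList_mul, wordRel_append]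
  surj := by
    classical
    intro r
    refine ⟨(con B).mk' (FreeMonoid.of fun i j => decide (r i j)), ?_, ?_⟩
    · rw [ne_eq, mk'_eq_one]
      exact FreeMonoid.of_ne_one _
    · intro i j
      rw [phi_mk]
      simp [wordRel]
  base := by
    intro e m he he1 H
    obtain ⟨E, rfl⟩ := (con B).mk'_surjective e
    obtain ⟨m, rfl⟩ := (con B).mk'_surjective m
    rw [← map_mul, mk'_eq] at he
    rw [ne_eq, mk'_eq_one] at he1
    simp only [← map_mul, phi_mk]
    refine hbase E m he1 he.2.1 ?_
    intro p q hpq hP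
    have := (H p q ⟨hpq, (PP_mk_one B).2 hP⟩).2
    simp only [pathSys, ← map_mul, PP_mk, lt_mul] at this
    exact this

/-- the letter relating exactly `i` to `i` -/
def pt (i : Fin h) : Fin h → Fin h → Bool := fun a b => decide (a = i ∧ b = i)

theorem tape_eq (i j : Fin h) (E Y : FreeMonoid (Fin h → Fin h → Bool)) :
    tape (pt i :: (E * Y * E).toList ++ [pt j]) =
      ([Cell.leftEnd, Cell.letter (pt i)] ++ lt E) ++ lt Y ++
        (lt E ++ [Cell.letter (pt j), Cell.rightEnd]) := by
  simp [tape, lt]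

theorem live_iff (i j : Fin h) (Y : List (Fin h → Fin h → Bool)) :
    pt i :: Y ++ [pt j] ∈ liveness h ↔ wordRel Y i j := by
  change (∃ a b, wordRel (pt i :: Y ++ [pt j]) a b) ↔ _
  simp only [List.cons_append, wordRel, wordRel_append, pt, decide_eq_true_eq]
  constructor
  · rintro ⟨a, b, c, ⟨-, rfl⟩, k, h1, l, ⟨rfl, -⟩, -⟩
    exact h1
  · intro h
    exact ⟨i, j, i, ⟨rfl, rfl⟩, j, h, j, ⟨rfl, rfl⟩, rfl⟩

theorem wordRel_idem {E Y : FreeMonoid (Fin h → Fin h → Bool)}
    (hE : wordRel (E * E).toList = wordRel E.toList) (i j : Fin h) :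
    wordRel (E * (E * Y * E) * E).toList i j ↔ wordRel (E * Y * E).toList i j := by
  have : E * (E * Y * E) * E = (E * E) * Y * (E * E) := by simp only [mul_assoc]
  rw [this]
  simp only [FreeMonoid.toList_mul (E * E * Y), FreeMonoid.toList_mul (E * E),
    FreeMonoid.toList_mul (E * Y), FreeMonoid.toList_mul E Y, wordRel_append, hE]

theorem wordRel_idem' {E : FreeMonoid (Fin h → Fin h → Bool)}
    (hE : wordRel (E * E).toList = wordRel E.toList) (i j : Fin h) :
    wordRel (E * E * E).toList i j ↔ wordRel E.toList i j := by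
  rw [FreeMonoid.toList_mul, wordRel_append, hE, ← wordRel_append, ← FreeMonoid.toList_mul, hE]

theorem lower_nfa [Fintype σ] (hh : 2 ≤ h) (hB : B.language = (liveness h)ᶜ) :
    2 ^ ((h - 2) / 127) ≤ 2 * (Fintype.card σ + 1) := by
  have hacc : ∀ w, B.Accepts w ↔ w ∉ liveness h := fun w => by
    change w ∈ B.language ↔ _
    rw [hB]; rfl
  have := (liveSys B ?_).bound_nfa (by simpa using hh)
  · simpa [mul_comm] using this
  intro E m hE hEE H i j hij
  by_contra hn
  have h1 : B.Accepts (pt i :: (E * E * E).toList ++ [pt j]) := by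
    rw [hacc, live_iff, wordRel_idem' hEE]; exact hn
  have h2 : ¬ B.Accepts (pt i :: (E * (E * m * E) * E).toList ++ [pt j]) := by
    rw [hacc, live_iff, wordRel_idem hEE]; exact fun h => h hij
  rw [accepts_iff, tape_eq] at h1 h2
  have h3 : P₀ (delta B) (some B.start, true).2 []
      (([Cell.leftEnd, Cell.letter (pt i)] ++ lt E) ++ lt E ++
        (lt E ++ [Cell.letter (pt j), Cell.rightEnd])) [] (some B.start, true) (none, true) := by
    simpa [P₀, Dir, o] using h1
  rcases P₀.repl (u := (some B.start, true)) (v := (none, true)) (lt m) (lt_ne hE) rfl h3 with h4 | ⟨p, q, k1, k2, k3, -⟩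
  · apply h2
    simpa [P₀, Dir, o, lt_mul] using h4
  · apply k3
    simpa using (H p q k1 k2).mono [Cell.leftEnd, Cell.letter (pt i)]
      [Cell.letter (pt j), Cell.rightEnd]

theorem lower_dfa [Fintype σ] (hdet : B.IsDeterministic) (hB : B.language = liveness h) :
    2 ^ ((h - 2) / 31) ≤ 4 * (Fintype.card σ + 1) ^ 2 := by
  have hacc : ∀ w, B.Accepts w ↔ w ∈ liveness h := fun w => by
    change w ∈ B.language ↔ _
    rw [hB]
  have := (liveSys B ?_).bound_dfa (by simp)
  · simp only [Fintype.card_fin, Fintype.card_prod, Fintype.card_option, Fintype.card_bool] at this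
    calc _ ≤ _ := this
      _ = _ := by ring
  intro E m hE hEE H i j hij
  have h2 : B.Accepts (pt i :: (E * (E * m * E) * E).toList ++ [pt j]) := by
    rw [hacc, live_iff, wordRel_idem hEE]; exact hij
  rw [← wordRel_idem' hEE, ← live_iff, ← hacc]
  rw [accepts_iff, tape_eq] at h2 ⊢
  rw [lt_mul, lt_mul] at h2
  exact det_back (delta_det B hdet) (lt_ne hE)
    (fun p q k1 k2 => (H p q k1 k2).mono [Cell.leftEnd, Cell.letter (pt i)]
      [Cell.letter (pt j), Cell.rightEnd]) _ _ h2

end monoid

end Crest.Agent.R294
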