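import Crest.Agent.R294.Basic

/-!
The potential lemma: passing from an idempotent `e` to an idempotent `a = e a e` below it
lowers the number of components avoiding a set `G` of permanently fixed loops by at least half
the size of the support of `a`.
-/

namespace Crest.Agent.R294

namespace PathSys

variable {M V : Type*} [Monoid M] {S : PathSys M V}

variable (S) in
/-- the loops of `e` whose component avoids `G` -/
def Om (G : Set V) (e : M) : Set V :=
  {w | S.T e e e w w ∧ ∀ g ∈ G, ¬ (S.T e e e w g ∧ S.T e e e g w)}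

/-- every loop of `a = e a e` is equivalent to two loops of `e` joined through `a` -/
theorem zigzag [Finite V] {e a : M} (he : e * e = e) (he1 : e ≠ 1) (ha : a * a = a)
    (h1 : e * a = a) (h2 : a * e = a) {w : V} (hw : S.T a a a w w) :
    ∃ w₁ w₂, S.T e e e w₁ w₁ ∧ S.T e e e w₂ w₂ ∧ S.T e a e w₁ w₂ ∧ S.T a a a w w₁ ∧
      S.T a a a w₂ w := by
  have he' : ∀ t, e * (e * t) = e * t := fun t => by rw [← mul_assoc, he]
  have ha' : ∀ t, a * (a * t) = a * t := fun t => by rw [← mul_assoc, ha]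
  have h1' : ∀ t, e * (a * t) = a * t := fun t => by rw [← mul_assoc, h1]
  have h2' : ∀ t, a * (e * t) = a * t := fun t => by rw [← mul_assoc, h2]
  have ha1 : a ≠ 1 := fun h => he1 (S.hone e a (by rw [h1, h]))
  -- an inner crossing of `a`
  have hw' : S.P (S.dir w) a (a * a * a) a w w := by rw [ha, ha]; exact hw.2
  obtain ⟨x, y, hx, hy, c1, c2, c3⟩ := S.cross ha1 rfl hw'
  -- inner crossing of the first `e`
  have c2' : S.P (S.dir x) 1 (1 * e * a) 1 x y := by rw [one_mul, h1, hx]; exact c2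
  obtain ⟨p, q, hp, hq, d1, d2, d3⟩ := S.cross he1 (hx.trans hy.symm) c2'
  have d2' : S.T e e e p q :=
    T.mono' (x := 1) (z := 1) ⟨hp.trans hq.symm, hp ▸ d2⟩ ⟨e, by simp⟩ ⟨e, by simp⟩
  obtain ⟨w₁, e1, e2, e3⟩ := d2'.loop he
  -- inner crossing of the last `e`
  have d3' : S.P (S.dir q) e (a * e * 1) 1 q y := by
    rw [mul_one, h2, hq]; simpa using d3
  obtain ⟨p', q', hp', hq', f1, f2, f3⟩ := S.cross he1 (hq.trans (hx.trans hy.symm)) d3'
  have f2' : S.T e e e p' q' :=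
    T.mono' (x := 1) (z := 1) ⟨hp'.trans hq'.symm, hp' ▸ f2⟩ ⟨e, by simp⟩ ⟨e, by simp⟩
  obtain ⟨w₂, g1, g2, g3⟩ := f2'.loop he
  have f1' : S.T e a e q p' := ⟨hp'.symm, by simpa using f1⟩
  refine ⟨w₁, w₂, e2, g2, ?_, ?_, ?_⟩
  · have := T.lax (by rw [mul_assoc, h2]) he (T.lax he h1 e3 f1') g1
    rwa [h1, h2] at this
  · have c1' : S.T a a a w x := ⟨hx.symm, by simpa only [ha] using c1⟩
    have d1' : S.T a 1 a x p :=
      T.mono' (x := 1) (z := 1 * e * a) ⟨hp.symm, by simpa using d1⟩ ⟨a, by simp⟩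
        ⟨1, by simp [h1]⟩
    have e1' : S.T a e a p w₁ := e1.mono' ⟨a, h2.symm⟩ ⟨a, h1.symm⟩
    have k1 : S.T a (1 * e) a x w₁ :=
      T.comp (by rw [h1]; exact d1') (by rw [mul_one]; exact e1')
    have k2 : S.T a (a * (1 * e)) a w w₁ :=
      T.comp (by rw [one_mul, h1]; exact c1') (by rw [ha]; exact k1)
    rwa [one_mul, h2] at k2
  · have c3' : S.T a a a y w := ⟨hy, by rw [hy]; simpa only [ha] using c3⟩
    have f3' : S.T a 1 a q' y :=
      T.mono' (x := e * a * e) (z := 1) ⟨hq'.trans (hq.trans (hx.trans hy.symm)), hq' ▸ f3⟩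
        ⟨1, by simp [h1, h2]⟩ ⟨a, by simp⟩
    have g3' : S.T a e a w₂ q' := g3.mono' ⟨a, h2.symm⟩ ⟨a, h1.symm⟩
    have k1 : S.T a (e * 1) a w₂ y :=
      T.comp (by rw [one_mul]; exact g3') (by rw [h2]; exact f3')
    have k2 : S.T a ((e * 1) * a) a w₂ w :=
      T.comp (by rw [ha]; exact k1) (by rw [mul_one, h2]; exact c3')
    rwa [mul_one, h1] at k2

theorem potential [Finite V] {e a : M} (he : e * e = e) (he1 : e ≠ 1) (ha : a * a = a)
    (h1 : e * a = a) (h2 : a * e = a) (G : Set V) (hG : ∀ g ∈ G, S.T e a e g g) :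
    S.N e (S.supp e a) + 2 * S.N a (S.Om G a) ≤ 2 * S.N e (S.Om G e) := by
  classical
  -- basic transfers
  have up : ∀ {u v}, S.T e a e u v → S.T a a a u v := fun h => h.mono' ⟨a, h2.symm⟩ ⟨a, h1.symm⟩
  have upL : ∀ {u v w}, S.T e e e u v → S.T a a a v w → S.T a a a u w := by
    intro u v w h h'
    have k : S.T a e a u v := h.mono' ⟨a, h2.symm⟩ ⟨a, h1.symm⟩
    have := T.comp (y₁ := e) (y₂ := a) (x := a) (z := a) (by rw [ha]; exact k)
      (by rw [h2]; exact h')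
    rwa [h1] at this
  have upR : ∀ {u v w}, S.T a a a u v → S.T e e e v w → S.T a a a u w := by
    intro u v w h h'
    have k : S.T a e a v w := h'.mono' ⟨a, h2.symm⟩ ⟨a, h1.symm⟩
    have := T.comp (y₁ := a) (y₂ := e) (x := a) (z := a) (by rw [h1]; exact h)
      (by rw [ha]; exact k)
    rwa [h2] at this
  have fixinv : ∀ {u v}, S.T e e e u v → S.T e e e v u → S.T e a e v v → S.T e a e u u := by
    intro u v h h' hv
    have := T.lax (by rw [mul_assoc, h2]) he (T.lax he h1 h hv) h'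
    rwa [h1, h2] at this
  set Bs := S.supp e a with hBs
  let Fx : Set V := {w | w ∈ S.Om G e ∧ S.T e a e w w}
  have hsplit : S.N e Bs + S.N e Fx ≤ S.N e (S.Om G e) := by
    unfold N
    rw [← Set.ncard_union_eq _ (Set.toFinite _) (Set.toFinite _)]
    · refine Set.ncard_le_ncard ?_ (Set.toFinite _)
      rw [← Set.image_union]
      refine Set.image_mono (Set.union_subset ?_ fun w hw => hw.1)
      intro w hw
      exact ⟨hw.1, fun g hg h => hw.2 (fixinv h.1 h.2 (hG g hg))⟩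
    · rw [Set.disjoint_left]
      rintro _ ⟨u, hu, rfl⟩ ⟨v, hv, huv⟩
      obtain ⟨k1, k2⟩ := of_cls_eq hu.1 huv
      exact hu.2 (fixinv k2 k1 hv.2)
  let Y : Set V := {w' | w' ∈ S.Om G a ∧ ∃ w, S.T e e e w w ∧ S.T e a e w w ∧
    S.T a a a w w' ∧ S.T a a a w' w}
  let Z : Set V := {w' | w' ∈ S.Om G a ∧ w' ∉ Y}
  have hYZ : S.N a (S.Om G a) ≤ S.N a Y + S.N a Z := by
    refine le_trans (N_mono ?_) (N_union_le _ _)
    intro w hw
    by_cases h : w ∈ Y
    · exact Or.inl h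
    · exact Or.inr ⟨hw, h⟩
  have hY : S.N a Y ≤ S.N e Fx := by
    have hσ : ∀ w' : V, ∃ w, w' ∈ Y → S.T e e e w w ∧ S.T e a e w w ∧
        S.T a a a w w' ∧ S.T a a a w' w := by
      intro u
      by_cases hu : u ∈ Y
      · obtain ⟨w, hw⟩ := hu.2
        exact ⟨w, fun _ => hw⟩
      · exact ⟨u, fun h => absurd h hu⟩
    choose σ hσ using hσ
    refine ncard_image_le_of_factor _ (S.cls a) (fun u => S.cls e (σ u)) _ (Set.toFinite _) ?_ ?_
    · intro u hu
      obtain ⟨k1, k2, k3, k4⟩ := hσ u hu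
      refine ⟨σ u, ⟨⟨k1, fun g hg h => hu.1.2 g hg ⟨upR k4 h.1, upL h.2 k3⟩⟩, k2⟩, rfl⟩
    · intro x hx y hy hxy
      obtain ⟨k1, k2⟩ := of_cls_eq (hσ y hy).1 hxy
      exact cls_eq ha (T.trans ha (upR (hσ x hx).2.2.2 k1) (hσ y hy).2.2.1)
        (T.trans ha (upR (hσ y hy).2.2.2 k2) (hσ x hx).2.2.1)
  have hZ : 2 * S.N a Z ≤ S.N e Bs := by
    have hσ : ∀ κ : S.cls a '' Z, ∃ w : Bool → V,
        (∀ b, w b ∈ Bs ∧ S.cls a (w b) = κ ∧ S.T a a a (w b) (w b)) ∧
          S.cls e (w true) ≠ S.cls e (w false) := by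
      rintro ⟨_, w, hw, rfl⟩
      obtain ⟨w₁, w₂, k1, k2, k3, k4, k5⟩ := zigzag he he1 ha h1 h2 hw.1.1
      have l1 : S.T a a a w₁ w := T.trans ha (up k3) k5
      have l2 : S.T a a a w w₂ := T.trans ha k4 (up k3)
      have n1 : ¬ S.T e a e w₁ w₁ := fun h => hw.2 ⟨hw.1, w₁, k1, h, l1, k4⟩
      have n2 : ¬ S.T e a e w₂ w₂ := fun h => hw.2 ⟨hw.1, w₂, k2, h, k5, l2⟩
      refine ⟨fun b => if b then w₁ else w₂, ?_, ?_⟩
      · intro b
        cases b
        · exact ⟨⟨k2, n2⟩, cls_eq ha k5 l2, T.trans ha k5 l2⟩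
        · exact ⟨⟨k1, n1⟩, cls_eq ha l1 k4, T.trans ha l1 k4⟩
      · intro h
        obtain ⟨-, m2⟩ := of_cls_eq k2 h
        apply n1
        have := T.lax h2 he k3 m2
        rwa [h2] at this
    choose σ hσ hσ' using hσ
    have := Set.ncard_le_ncard_of_injOn (s := (Set.univ : Set (Bool × (S.cls a '' Z))))
      (t := S.cls e '' Bs) (fun x => S.cls e (σ x.2 x.1))
      (fun x _ => ⟨_, (hσ x.2 x.1).1, rfl⟩) ?_ (Set.toFinite _)
    · rw [Set.ncard_univ, Nat.card_prod, Nat.card_coe_set_eq] at this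
      simpa [N] using this
    · rintro ⟨b, κ⟩ - ⟨b', κ'⟩ - h
      simp only at h
      obtain ⟨m1, m2⟩ := of_cls_eq (hσ κ' b').1.1 h
      have hκ : κ = κ' := by
        apply Subtype.ext
        rw [← (hσ κ b).2.1, ← (hσ κ' b').2.1]
        exact cls_eq ha (upL m1 (hσ κ' b').2.2) (upL m2 (hσ κ b).2.2)
      subst hκ
      cases b <;> cases b'
      · rfl
      · exact absurd h.symm (hσ' κ)
      · exact absurd h (hσ' κ)
      · rfl
  omega

end PathSys

end Crest.Agent.R294
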