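import Mathlib
import Crest.Prelude.Def_TwoWay

/-!
Runs of a two-way machine on a finite tape with integer positions, and the decomposition of runs
along a marked block of the tape.
-/

namespace Crest.Agent.R294

open Crest.TwoWay

variable {Γ Q : Type*}

/-- the content of the cell at position `i` -/
def cell (w : List Γ) (i : ℤ) : Option Γ := if 0 ≤ i then w[i.toNat]? else none

/-- displacement of a head move -/
def off : HeadMove → ℤ
  | .moveLeft => -1
  | .stay => 0
  | .moveRight => 1

theorem off_le (m : HeadMove) : off m ≤ 1 := by cases m <;> simp [off]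
theorem le_off (m : HeadMove) : -1 ≤ off m := by cases m <;> simp [off]

theorem cell_bounds {w : List Γ} {i : ℤ} {a : Γ} (h : cell w i = some a) :
    0 ≤ i ∧ i < w.length := by
  unfold cell at h
  split_ifs at h with h0
  have := (List.getElem?_eq_some_iff.1 h).1
  omega

theorem cell_append_left {U W : List Γ} {i : ℤ} (h : i < U.length) :
    cell (U ++ W) i = cell U i := by
  unfold cell
  split_ifs with h0
  · rw [List.getElem?_append_left (by omega)]
  · rfl

theorem cell_append_right {U W : List Γ} {i : ℤ} (h : (U.length : ℤ) ≤ i) :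
    cell (U ++ W) i = cell W (i - U.length) := by
  unfold cell
  rw [if_pos (by omega), if_pos (by omega), List.getElem?_append_right (by omega)]
  congr 1
  omega

variable (δ : Q → Γ → Set (Q × HeadMove))

/-- one step on the tape `w` -/
def TStep (w : List Γ) (c d : Q × ℤ) : Prop :=
  ∃ a m, cell w c.2 = some a ∧ (d.1, m) ∈ δ c.1 a ∧ d.2 = c.2 + off m

/-- reachability on the tape `w` -/
def Reach (w : List Γ) : Q × ℤ → Q × ℤ → Prop := Relation.ReflTransGen (TStep δ w)

variable {δ}

theorem TStep.bounds {w : List Γ} {c d : Q × ℤ} (h : TStep δ w c d) :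
    0 ≤ c.2 ∧ c.2 < w.length ∧ c.2 - 1 ≤ d.2 ∧ d.2 ≤ c.2 + 1 := by
  obtain ⟨a, m, h1, -, h3⟩ := h
  have := cell_bounds h1
  have := off_le m
  have := le_off m
  omega

theorem TStep.of_cell {w w' : List Γ} {p q : Q} {i j i' j' : ℤ} (h : TStep δ w (p, i) (q, j))
    (hc : cell w' i' = cell w i) (hj : j' - i' = j - i) : TStep δ w' (p, i') (q, j') := by
  obtain ⟨a, m, h1, h2, h3⟩ := h
  exact ⟨a, m, hc.trans h1, h2, by simp only at h3 ⊢; omega⟩

theorem cell_mid {U Y W : List Γ} {i : ℤ} (h0 : 0 ≤ i) (h1 : i < Y.length) :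
    cell (U ++ Y ++ W) (U.length + i) = cell Y i := by
  rw [cell_append_left (by simp; omega), cell_append_right (by omega)]
  congr 1
  omega

theorem Reach.refl {w : List Γ} {c : Q × ℤ} : Reach δ w c c := Relation.ReflTransGen.refl

theorem Reach.trans {w : List Γ} {c d e : Q × ℤ} (h : Reach δ w c d) (h' : Reach δ w d e) :
    Reach δ w c e := Relation.ReflTransGen.trans h h'

theorem Reach.tail {w : List Γ} {c d e : Q × ℤ} (h : Reach δ w c d) (h' : TStep δ w d e) :
    Reach δ w c e := Relation.ReflTransGen.tail h h'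

theorem TStep.reach {w : List Γ} {c d : Q × ℤ} (h : TStep δ w c d) : Reach δ w c d :=
  Relation.ReflTransGen.single h

theorem Reach.embed' (U W : List Γ) {Y : List Γ} {c d : Q × ℤ} (h : Reach δ Y c d) :
    Reach δ (U ++ Y ++ W) (c.1, U.length + c.2) (d.1, U.length + d.2) := by
  induction h with
  | refl => exact Reach.refl
  | @tail b c _ h2 ih =>
    refine ih.tail ?_
    have hb := h2.bounds
    exact TStep.of_cell (p := b.1) (i := b.2) (q := c.1) (j := c.2) h2 (cell_mid hb.1 hb.2.1)
      (by ring)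

theorem Reach.embed {U Y W w : List Γ} {p q : Q} {i j i' j' : ℤ} (h : Reach δ Y (p, i) (q, j))
    (hw : w = U ++ Y ++ W) (hi : i' = U.length + i) (hj : j' = U.length + j) :
    Reach δ w (p, i') (q, j') := by
  subst hw hi hj
  exact h.embed' U W

/-- discrete intermediate value property, upwards -/
theorem Reach.ivt_up {w : List Γ} {c d : Q × ℤ} (h : Reach δ w c d) (a : ℤ) (h1 : c.2 ≤ a)
    (h2 : a ≤ d.2) : ∃ p, Reach δ w c (p, a) ∧ Reach δ w (p, a) d := by
  induction h with
  | refl => exact ⟨c.1, by rw [show a = c.2 by omega]; exact Reach.refl,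
      by rw [show a = c.2 by omega]; exact Reach.refl⟩
  | @tail b e h3 h4 ih =>
    by_cases hb : a ≤ b.2
    · obtain ⟨p, k1, k2⟩ := ih hb
      exact ⟨p, k1, k2.tail h4⟩
    · have := h4.bounds
      have he : a = e.2 := by omega
      exact ⟨e.1, by rw [he]; exact Reach.tail h3 h4, by rw [he]; exact Reach.refl⟩

/-- discrete intermediate value property, downwards -/
theorem Reach.ivt_down {w : List Γ} {c d : Q × ℤ} (h : Reach δ w c d) (a : ℤ) (h1 : a ≤ c.2)
    (h2 : d.2 ≤ a) : ∃ p, Reach δ w c (p, a) ∧ Reach δ w (p, a) d := by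
  induction h with
  | refl => exact ⟨c.1, by rw [show a = c.2 by omega]; exact Reach.refl,
      by rw [show a = c.2 by omega]; exact Reach.refl⟩
  | @tail b e h3 h4 ih =>
    by_cases hb : b.2 ≤ a
    · obtain ⟨p, k1, k2⟩ := ih hb
      exact ⟨p, k1, k2.tail h4⟩
    · have := h4.bounds
      have he : a = e.2 := by omega
      exact ⟨e.1, by rw [he]; exact Reach.tail h3 h4, by rw [he]; exact Reach.refl⟩

/-- relative position of the entry cell of a block of length `n` on side `s` -/
def ent (n : ℕ) : Bool → ℤ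
  | false => 0
  | true => n - 1

/-- relative position of the exit cell of a block of length `n` on side `s` -/
def ex (n : ℕ) : Bool → ℤ
  | false => -1
  | true => n

/-- Decomposition of a run along the block `Y`. -/
theorem Reach.decomp {U Y W : List Γ} (hY : Y ≠ [])
    (Rr : Bool × (Q × ℤ) → Bool × (Q × ℤ) → Prop) (hrefl : ∀ x, Rr x x)
    (htrans : ∀ x y z, Rr x y → Rr y z → Rr x z)
    (hL : ∀ c d, TStep δ (U ++ Y ++ W) c d → c.2 < U.length → Rr (false, c) (false, d))
    (hR : ∀ c d, TStep δ (U ++ Y ++ W) c d → (U.length : ℤ) + Y.length ≤ c.2 →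
      Rr (true, c) (true, d))
    {s : Bool} {c d : Q × ℤ}
    (hs : (s = false ∧ c.2 ≤ U.length) ∨ (s = true ∧ (U.length : ℤ) + Y.length - 1 ≤ c.2))
    (h : Reach δ (U ++ Y ++ W) c d) :
    (∃ s₁ r s₂ q, Reach δ (U ++ Y ++ W) c (r, U.length + ent Y.length s₁) ∧
      Reach δ Y (r, ent Y.length s₁) (q, ex Y.length s₂) ∧
      ¬ Rr (s₁, (r, U.length + ent Y.length s₁)) (s₂, (q, U.length + ex Y.length s₂)) ∧
      Reach δ (U ++ Y ++ W) (q, U.length + ex Y.length s₂) d) ∨
    (d.2 < U.length ∧ Rr (s, c) (false, d)) ∨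
    ((U.length : ℤ) + Y.length ≤ d.2 ∧ Rr (s, c) (true, d)) ∨
    ((U.length : ℤ) ≤ d.2 ∧ d.2 < U.length + Y.length ∧ ∃ s₁ r,
      Rr (s, c) (s₁, (r, U.length + ent Y.length s₁)) ∧
      Reach δ (U ++ Y ++ W) c (r, U.length + ent Y.length s₁) ∧
      Reach δ Y (r, ent Y.length s₁) (d.1, d.2 - U.length)) := by
  have hlen : 0 < Y.length := List.length_pos_iff.2 hY
  induction h with
  | refl =>
    obtain ⟨p, i⟩ := c
    simp only at hs ⊢
    rcases hs with ⟨rfl, h1⟩ | ⟨rfl, h1⟩
    · by_cases h2 : i < U.length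
      · exact Or.inr (Or.inl ⟨h2, hrefl _⟩)
      · obtain rfl : i = U.length := by omega
        refine Or.inr (Or.inr (Or.inr ⟨le_rfl, by omega, false, p, ?_, ?_, ?_⟩))
        · simpa [ent] using hrefl _
        · simpa [ent] using Reach.refl
        · simpa [ent] using Reach.refl
    · by_cases h2 : (U.length : ℤ) + Y.length ≤ i
      · exact Or.inr (Or.inr (Or.inl ⟨h2, hrefl _⟩))
      · obtain rfl : i = U.length + ent Y.length true := by simp only [ent]; omega
        refine Or.inr (Or.inr (Or.inr ⟨by simp only [ent]; omega, by omega, true, p, hrefl _,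
          Reach.refl, ?_⟩))
        simpa using Reach.refl
  | @tail b e h3 h4 ih =>
    have hb := h4.bounds
    obtain ⟨p, i⟩ := b
    obtain ⟨q, j⟩ := e
    simp only at hb ih ⊢
    rcases ih with ⟨s₁, r, s₂, q', k1, k2, k3, k4⟩ | ⟨k1, k2⟩ | ⟨k1, k2⟩ | ⟨k1, k2, s₁, r, k3, k4, k5⟩
    · exact Or.inl ⟨s₁, r, s₂, q', k1, k2, k3, k4.tail h4⟩
    · have k3 := htrans _ _ _ k2 (hL _ _ h4 k1)
      by_cases h2 : j < U.length
      · exact Or.inr (Or.inl ⟨h2, k3⟩)
      · obtain rfl : j = U.length := by omega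
        refine Or.inr (Or.inr (Or.inr ⟨le_rfl, by omega, false, q, ?_, ?_, ?_⟩))
        · simpa [ent] using k3
        · simpa [ent] using Reach.tail h3 h4
        · simpa [ent] using Reach.refl
    · have k3 := htrans _ _ _ k2 (hR _ _ h4 k1)
      by_cases h2 : (U.length : ℤ) + Y.length ≤ j
      · exact Or.inr (Or.inr (Or.inl ⟨h2, k3⟩))
      · obtain rfl : j = U.length + ent Y.length true := by simp only [ent]; omega
        refine Or.inr (Or.inr (Or.inr ⟨by simp only [ent]; omega, by omega, true, q, k3,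
          Reach.tail h3 h4, ?_⟩))
        simpa using Reach.refl
    · have k6 : Reach δ Y (r, ent Y.length s₁) (q, j - U.length) := by
        refine k5.tail (h4.of_cell ?_ (by ring))
        rw [← cell_mid (U := U) (W := W) (by omega) (by omega)]
        congr 1
        ring
      by_cases h2 : j < U.length
      · obtain rfl : j = U.length + ex Y.length false := by simp only [ex]; omega
        by_cases h5 : Rr (s₁, (r, U.length + ent Y.length s₁))
            (false, (q, U.length + ex Y.length false))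
        · exact Or.inr (Or.inl ⟨h2, htrans _ _ _ k3 h5⟩)
        · exact Or.inl ⟨s₁, r, false, q, k4, by simpa using k6, h5, Reach.refl⟩
      · by_cases h6 : (U.length : ℤ) + Y.length ≤ j
        · obtain rfl : j = U.length + ex Y.length true := by simp only [ex]; omega
          by_cases h5 : Rr (s₁, (r, U.length + ent Y.length s₁))
              (true, (q, U.length + ex Y.length true))
          · exact Or.inr (Or.inr (Or.inl ⟨h6, htrans _ _ _ k3 h5⟩))
          · exact Or.inl ⟨s₁, r, true, q, k4, by simpa using k6, h5, Reach.refl⟩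
        · exact Or.inr (Or.inr (Or.inr ⟨by omega, by omega, s₁, r, k3, k4, k6⟩))

/-- a run from inside a block to the outside leaves the block through an exit -/
theorem Reach.exit {U Y W : List Γ} {c d : Q × ℤ} (h : Reach δ (U ++ Y ++ W) c d)
    (h1 : (U.length : ℤ) ≤ c.2) (h2 : c.2 < U.length + Y.length)
    (h3 : d.2 < U.length ∨ (U.length : ℤ) + Y.length ≤ d.2) :
    ∃ s q, Reach δ Y (c.1, c.2 - U.length) (q, ex Y.length s) := by
  induction h using Relation.ReflTransGen.head_induction_on with
  | refl => omega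
  | @head a b h4 _ ih =>
    have hb := h4.bounds
    obtain ⟨p, i⟩ := a
    obtain ⟨q, j⟩ := b
    simp only at hb ih h1 h2 ⊢
    have k : TStep δ Y (p, i - U.length) (q, j - U.length) := by
      refine h4.of_cell ?_ (by ring)
      rw [← cell_mid (U := U) (W := W) (by omega) (by omega)]
      congr 1
      ring
    by_cases c1 : j < U.length
    · exact ⟨false, q, by rw [show ex Y.length false = j - U.length by simp only [ex]; omega]
                          exact k.reach⟩
    by_cases c2 : (U.length : ℤ) + Y.length ≤ j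
    · exact ⟨true, q, by rw [show ex Y.length true = j - U.length by simp only [ex]; omega]
                         exact k.reach⟩
    obtain ⟨s, q', k'⟩ := ih (by omega) (by omega)
    exact ⟨s, q', k.reach.trans k'⟩

/-- transport of a tagged configuration from a block of length `n` to one of length `n'` -/
def tr (n n' : ℕ) (x : Bool × (Q × ℤ)) : Q × ℤ :=
  match x.1 with
  | false => x.2
  | true => (x.2.1, x.2.2 - n + n')

theorem TStep.tr_left {U Y Y' W : List Γ} {c d : Q × ℤ} (h : TStep δ (U ++ Y ++ W) c d)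
    (hc : c.2 < U.length) : TStep δ (U ++ Y' ++ W) c d := by
  obtain ⟨p, i⟩ := c
  obtain ⟨q, j⟩ := d
  refine h.of_cell ?_ rfl
  simp only at hc
  rw [List.append_assoc, List.append_assoc, cell_append_left hc, cell_append_left hc]

theorem TStep.tr_right {U Y Y' W : List Γ} {c d : Q × ℤ} (h : TStep δ (U ++ Y ++ W) c d)
    (hc : (U.length : ℤ) + Y.length ≤ c.2) :
    TStep δ (U ++ Y' ++ W) (c.1, c.2 - Y.length + Y'.length) (d.1, d.2 - Y.length + Y'.length) := by
  obtain ⟨p, i⟩ := c
  obtain ⟨q, j⟩ := d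
  refine h.of_cell ?_ (by simp)
  simp only at hc ⊢
  rw [cell_append_right (by simp; omega), cell_append_right (by simp; omega)]
  congr 1
  simp
  ring

/-- the decomposition specialised to a replacement of the block `Y` by `Y'` -/
theorem Reach.replace {U Y W : List Γ} (Y' : List Γ) (hY : Y ≠ []) {s : Bool} {c d : Q × ℤ}
    (hs : (s = false ∧ c.2 ≤ U.length) ∨ (s = true ∧ (U.length : ℤ) + Y.length - 1 ≤ c.2))
    (h : Reach δ (U ++ Y ++ W) c d) :
    (∃ s₁ r s₂ q, Reach δ (U ++ Y ++ W) c (r, U.length + ent Y.length s₁) ∧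
      Reach δ Y (r, ent Y.length s₁) (q, ex Y.length s₂) ∧
      ¬ Reach δ (U ++ Y' ++ W) (r, U.length + ent Y'.length s₁) (q, U.length + ex Y'.length s₂) ∧
      Reach δ (U ++ Y ++ W) (q, U.length + ex Y.length s₂) d) ∨
    (d.2 < U.length ∧ Reach δ (U ++ Y' ++ W) (tr Y.length Y'.length (s, c)) d) ∨
    ((U.length : ℤ) + Y.length ≤ d.2 ∧ Reach δ (U ++ Y' ++ W) (tr Y.length Y'.length (s, c))
      (d.1, d.2 - Y.length + Y'.length)) ∨
    ((U.length : ℤ) ≤ d.2 ∧ d.2 < U.length + Y.length ∧ ∃ s₁ r,
      Reach δ (U ++ Y' ++ W) (tr Y.length Y'.length (s, c)) (r, U.length + ent Y'.length s₁) ∧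
      Reach δ Y (r, ent Y.length s₁) (d.1, d.2 - U.length)) := by
  have e1 : ∀ s₁ (r : Q), tr Y.length Y'.length (s₁, (r, (U.length : ℤ) + ent Y.length s₁)) =
      (r, U.length + ent Y'.length s₁) := by
    intro s₁ r
    cases s₁ <;> simp [tr, ent]
    ring
  have e2 : ∀ s₁ (r : Q), tr Y.length Y'.length (s₁, (r, (U.length : ℤ) + ex Y.length s₁)) =
      (r, U.length + ex Y'.length s₁) := by
    intro s₁ r
    cases s₁ <;> simp [tr, ex]
  have := h.decomp hY
    (fun x y => Reach δ (U ++ Y' ++ W) (tr Y.length Y'.length x) (tr Y.length Y'.length y))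
    (fun _ => Reach.refl) (fun _ _ _ => Reach.trans)
    (fun c d h hc => (h.tr_left hc).reach) (fun c d h hc => (h.tr_right hc).reach) hs
  simp only [e1, e2] at this
  rcases this with h | h | h | ⟨k1, k2, s₁, r, k3, -, k5⟩
  · exact Or.inl h
  · exact Or.inr (Or.inl h)
  · exact Or.inr (Or.inr (Or.inl h))
  · exact Or.inr (Or.inr (Or.inr ⟨k1, k2, s₁, r, k3, k5⟩))

end Crest.Agent.R294
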