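import Crest.Agent.R294.Machine

/-!
The one-way nondeterministic automaton for liveness.
-/

namespace Crest.Agent.R294

open Crest.TwoWay Relation

variable {h : ℕ} {τ : Type*} (ι : Option (Option (Fin h)) → τ)

/-- guess a start point, follow the relations, accept at the right endmarker -/
def liveAut : TwoWayNFA (Fin h → Fin h → Bool) τ where
  start := ι none
  accept := {ι (some none)}
  step q c := {x | (q = ι none ∧ c = Cell.leftEnd ∧ ∃ i, x = (ι (some (some i)), .moveRight)) ∨
    (∃ i j R, q = ι (some (some i)) ∧ c = Cell.letter R ∧ R i j = true ∧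
      x = (ι (some (some j)), .moveRight)) ∨
    (∃ i, q = ι (some (some i)) ∧ c = Cell.rightEnd ∧ x = (ι (some none), .stay))}

theorem liveAut_noLeft : (liveAut ι).NoLeftMoves := by
  rintro q a p (⟨-, -, i, rfl⟩ | ⟨i, j, R, -, -, -, rfl⟩ | ⟨i, -, -, rfl⟩) <;> simp

theorem scan_eq_letter {α : Type*} {w : List α} {k : ℕ} {a : α} (h : scan w k = Cell.letter a) :
    1 ≤ k ∧ w[k - 1]? = some a := by
  unfold scan at h
  split_ifs at h with h0
  split at h
  · rename_i b hb
    simp only [Cell.letter.injEq] at h
    exact ⟨by omega, h ▸ hb⟩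
  · simp at h

theorem liveAut_language (hι : Function.Injective ι) : (liveAut ι).language = liveness h := by
  ext w
  constructor
  · rintro ⟨c, hc, hacc⟩
    have inv : (c.1 = ι none ∧ c.2 = 0) ∨
        (∃ i j, c.1 = ι (some (some j)) ∧ 1 ≤ c.2 ∧ wordRel (w.take (c.2 - 1)) i j) ∨
        (c.1 = ι (some none) ∧ w ∈ liveness h) := by
      clear hacc
      induction hc with
      | refl => exact Or.inl ⟨rfl, rfl⟩
      | @tail b e _ h2 ih =>
        obtain ⟨m, h3, h4⟩ := h2
        obtain ⟨k1, -⟩ := movePos_some h4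
        rcases h3 with ⟨h5, h6, i, h7⟩ | ⟨i, j, R, h5, h6, h7, h8⟩ | ⟨i, h5, h6, h7⟩
        · simp only [Prod.mk.injEq] at h7
          obtain ⟨h7, rfl⟩ := h7
          rw [scan_eq_leftEnd] at h6
          have : e.2 = 1 := by simp only [off] at k1; omega
          exact Or.inr (Or.inl ⟨i, i, h7, by omega, by simp [this, wordRel]⟩)
        · simp only [Prod.mk.injEq] at h8
          obtain ⟨h8, rfl⟩ := h8
          obtain ⟨l1, l2⟩ := scan_eq_letter h6
          have he : e.2 - 1 = (b.2 - 1) + 1 := by simp only [off] at k1; omega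
          rcases ih with ⟨l3, -⟩ | ⟨i', j', l3, -, l4⟩ | ⟨l3, -⟩
          · rw [h5] at l3; simpa using hι l3
          · rw [h5] at l3
            obtain rfl : i = j' := by simpa using hι l3
            refine Or.inr (Or.inl ⟨i', j, h8, by omega, ?_⟩)
            rw [he, List.take_add_one, l2, wordRel_append]
            exact ⟨i, l4, j, h7, rfl⟩
          · rw [h5] at l3; simpa using hι l3
        · simp only [Prod.mk.injEq] at h7
          rw [scan_eq_rightEnd] at h6
          rcases ih with ⟨l3, -⟩ | ⟨i', j', l3, -, l4⟩ | ⟨l3, -⟩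
          · rw [h5] at l3; simpa using hι l3
          · rw [List.take_of_length_le (by omega)] at l4
            exact Or.inr (Or.inr ⟨h7.1, i', j', l4⟩)
          · rw [h5] at l3; simpa using hι l3
    have hacc' : c.1 = ι (some none) := hacc
    rcases inv with ⟨l3, -⟩ | ⟨i', j', l3, -⟩ | ⟨-, l3⟩
    · rw [hacc'] at l3; simpa using hι l3
    · rw [hacc'] at l3; simpa using hι l3
    · exact l3
  · rintro ⟨a, b, hab⟩
    have key : ∀ (v u : List (Fin h → Fin h → Bool)) (i : Fin h), w = u ++ v → wordRel v i b →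
        ReflTransGen ((liveAut ι).Step w) (ι (some (some i)), u.length + 1)
          (ι (some none), w.length + 1) := by
      intro v
      induction v with
      | nil =>
        intro u i hw _
        rw [List.append_nil] at hw
        subst hw
        exact ReflTransGen.single ⟨.stay, Or.inr (Or.inr ⟨i, rfl, scan_eq_rightEnd.2 le_rfl, rfl⟩),
          rfl⟩
      | cons R v ih =>
        rintro u i hw ⟨j, h1, h2⟩
        refine ReflTransGen.head ?_ (ih (u ++ [R]) j (by simp [hw]) h2)
        refine ⟨.moveRight, Or.inr (Or.inl ⟨i, j, R, rfl, ?_, h1, rfl⟩), ?_⟩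
        · simp [scan, hw]
        · simp [movePos, hw]
    refine ⟨(ι (some none), w.length + 1), ReflTransGen.head ?_ (key w [] a rfl hab), rfl⟩
    exact ⟨.moveRight, Or.inl ⟨rfl, by simp [scan], a, rfl⟩, by simp [movePos]⟩

theorem exists_liveAut (h N : ℕ) (hN : h + 2 ≤ N) :
    ∃ A : TwoWayNFA (Fin h → Fin h → Bool) (Fin N), A.NoLeftMoves ∧ A.language = liveness h := by
  obtain ⟨ι⟩ : Nonempty (Option (Option (Fin h)) ↪ Fin N) :=
    Function.Embedding.nonempty_of_card_le (by simp; omega)
  exact ⟨liveAut ι, liveAut_noLeft ι, liveAut_language ι ι.injective⟩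

end Crest.Agent.R294
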